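import Vale.Agent.P132.Homog.TypeIII.Series

/-!
# A finite projection of a factor carries an almost tracial vector on a smaller corner
-/

namespace P132.Homog.TypeIII

open Filter Topology Finset
open Vale.Agent.P085 (IsProj IsPartition exists_corner_spectral_partition)
open scoped InnerProductSpace

universe u

variable {H : Type u} [NormedAddCommGroup H] [InnerProductSpace ℂ H] [CompleteSpace H]
variable {M : VonNeumannAlgebra H}

set_option linter.unusedSectionVars false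

lemma norm_add_apply_sq {v w : H →L[ℂ] H} (x : H) (h : star v * w = 0) :
    ‖(v + w) x‖ ^ 2 = ‖v x‖ ^ 2 + ‖w x‖ ^ 2 := by
  have e : ⟪v x, w x⟫_ℂ = 0 := by
    rw [inner_left]
    change ⟪x, (star v * w) x⟫_ℂ = 0
    rw [h, zero_apply, inner_zero_right]
  rw [add_apply, @norm_add_sq ℂ, e]
  simp

lemma Link.orth_ext {p q v w : H →L[ℂ] H} (hp : IsProj M p) (hq : IsProj M q) (hv : Link M p q v)
    (hw : Link M (p - star v * v) (q - v * star v) w) : star v * w = 0 ∧ v * star w = 0 := by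
  constructor
  · rw [← hw.left, ← mul_assoc, mul_sub, (hv.adj hp hq).right, hv.pi.star_eq, sub_self, zero_mul]
  · have h : v * (p - star v * v) = 0 := by rw [mul_sub, hv.right, hv.pi.eq, sub_self]
    rw [← ((hw.adj (hv.rest_init hp) (hv.rest_fin hp hq)).left), ← mul_assoc, h, zero_mul]

/-- The vector `v` separates the corner `r M r` from the right. -/
def Sep (M : VonNeumannAlgebra H) (r : H →L[ℂ] H) (v : H) : Prop :=
  ∀ x ∈ M, x * r = x → x v = 0 → x = 0

/-- If a vector dominates another on a corner, cut down to where the domination is strict. -/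
lemma exists_hahn {Ω : H} (hsep : ∀ x ∈ M, x Ω = 0 → x = 0) {p : H →L[ℂ] H} (hp : IsProj M p)
    {a b : H} {c : ℝ} (hlt : c * ‖p b‖ ^ 2 < ‖p a‖ ^ 2) :
    ∃ r, IsProj M r ∧ r ≠ 0 ∧ p * r = r ∧
      ∀ q, IsProj M q → q * r = q → c * ‖q b‖ ^ 2 ≤ ‖q a‖ ^ 2 := by
  obtain ⟨v, hv, ⟨hvv, hvC⟩, hmax⟩ := exists_maximal_link hsep hp hp
    (fun v => (v * v = v ∧ star v = v) ∧ ‖v a‖ ^ 2 ≤ c * ‖v b‖ ^ 2)
    ⟨⟨zero_mul _, star_zero _⟩, by simp⟩
    (fun s F hs hl hl' => by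
      have h1 : star F = F := hl'.unique (by simpa only [fun n => (hs n).1.2] using hl)
      have hR : ∀ n, ‖s n‖ ≤ 1 := fun n => IsStarProjection.norm_le _ ⟨(hs n).1.1, (hs n).1.2⟩
      refine ⟨⟨(hl.mul hR hl).unique (by simpa only [fun n => (hs n).1.1] using hl), h1⟩, ?_⟩
      exact le_of_tendsto_of_tendsto ((hl a).norm.pow 2) (((hl b).norm.pow 2).const_mul c)
        (Eventually.of_forall fun n => (hs n).2))
  have hvp : IsProj M v := ⟨hv.pi.mem, hvv.1, hvv.2⟩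
  have hi : star v * v = v := by rw [hvv.2, hvv.1]
  have hf : v * star v = v := by rw [hvv.2, hvv.1]
  rw [hi, hf] at hmax
  refine ⟨p - v, sub_isProj hp hvp hv.right, fun h0 => ?_, by rw [mul_sub, isProj_mul_self hp, hv.left],
    fun q hq hqr => ?_⟩
  · rw [sub_eq_zero.1 h0] at hlt
    linarith
  · by_contra hlt'
    push Not at hlt'
    have hq' : Link M (p - v) (p - v) q :=
      ⟨PI.of_proj hq, hqr, Le.symm hq (sub_isProj hp hvp hv.right) hqr⟩
    obtain ⟨hvq, hqv⟩ := hv.orth_ext hp hp (by rw [hi, hf]; exact hq')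
    rw [hvv.2] at hvq
    rw [isProj_star hq] at hqv
    have hqv' : q * v = 0 := by
      have := congrArg star hvq
      rwa [star_mul, hvv.2, isProj_star hq, star_zero] at this
    have h0 := hmax q hq' ⟨⟨by rw [add_mul, mul_add, mul_add, hvv.1, hqv, hqv', isProj_mul_self hq,
      add_zero, zero_add], by rw [star_add, hvv.2, isProj_star hq]⟩, by
      rw [norm_add_apply_sq a (by rw [hvv.2]; exact hvq),
        norm_add_apply_sq b (by rw [hvv.2]; exact hvq)]
      linarith⟩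
    simp [h0] at hlt'

/-- A finite projection contains a corner on which the state is almost tracial on links, with some
constant. -/
lemma exists_bounded_trace (hfac : IsFactor M) {Ω : H} (hsep : ∀ x ∈ M, x Ω = 0 → x = 0)
    {e : H →L[ℂ] H} (he : IsProj M e) (he0 : e ≠ 0) (hfin : Finite' M e) :
    ∃ r η, IsProj M r ∧ r ≠ 0 ∧ r η = η ∧ Sep M r η ∧
      ∃ K, ∀ x, Link M r r x → ‖star x η‖ ^ 2 ≤ K * ‖x η‖ ^ 2 := by
  obtain ⟨v, hv, hvC, hmax⟩ := exists_maximal_link hsep he he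
    (fun v => 2 * ‖v Ω‖ ^ 2 ≤ ‖star v Ω‖ ^ 2) (by simp)
    (fun s F hs hl hl' => le_of_tendsto_of_tendsto (((hl Ω).norm.pow 2).const_mul 2)
      ((hl' Ω).norm.pow 2) (Eventually.of_forall hs))
  have hvne : star v * v ≠ e := by
    intro h
    have h2 := hfin v hv h
    have e1 : ‖star v Ω‖ ^ 2 = ‖e Ω‖ ^ 2 := by
      rw [← h2]; simpa only [star_star] using hv.pi.adj.norm_apply_sq Ω
    have e2 : ‖v Ω‖ ^ 2 = ‖e Ω‖ ^ 2 := by rw [hv.pi.norm_apply_sq Ω, h]
    have : 0 < ‖e Ω‖ ^ 2 := by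
      have : e Ω ≠ 0 := fun h0 => he0 (hsep e he.1 h0)
      positivity
    linarith
  obtain ⟨w, hw, hwi, -⟩ := cancel hfac hsep he hfin hv
  obtain ⟨p, hp_def⟩ : ∃ p, p = e - star v * v := ⟨_, rfl⟩
  rw [← hp_def] at hwi
  have hp : IsProj M p := hp_def ▸ hv.rest_init he
  have hwp : w * p = w := hp_def ▸ hw.right
  have hp0 : p ≠ 0 := hp_def ▸ sub_ne_zero.2 (Ne.symm hvne)
  have hη : p (star w Ω) = star w Ω := by
    change (p * star w) Ω = star w Ω
    have := congrArg star hwp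
    rw [star_mul, isProj_star hp] at this
    rw [this]
  have hsepη : Sep M p (star w Ω) := by
    intro x hx hxp h0
    have h1 : x * star w = 0 := hsep _ (mul_mem hx (star_mem hw.pi.mem)) h0
    rw [← hxp, ← hwi, ← mul_assoc, h1, zero_mul]
  have hup : ∀ x, Link M p p x → ‖star x (star w Ω)‖ ^ 2 ≤ 2 * ‖x Ω‖ ^ 2 := by
    intro x hx
    rcases eq_or_ne x 0 with rfl | hx0
    · simp
    have hwx : star (w * x) * (w * x) = star x * x := by
      rw [star_mul, mul_assoc, ← mul_assoc (star w), hwi, hx.left]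
    have hL : Link M (e - star v * v) (e - v * star v) (w * x) := by
      refine ⟨⟨mul_mem hw.pi.mem hx.pi.mem, hwx ▸ hx.pi.proj, ?_⟩, ?_, ?_⟩
      · rw [hwx, mul_assoc, hx.pi.eq]
      · rw [← hp_def, mul_assoc, hx.right]
      · rw [← mul_assoc, hw.left]
    have hne : w * x ≠ 0 := fun h0 => hx0 (by
      rw [← hx.left, ← hwi, mul_assoc, h0, mul_zero])
    obtain ⟨ho1, ho2⟩ := hv.orth_ext he he hL
    have hnot : ¬ (2 * ‖(v + w * x) Ω‖ ^ 2 ≤ ‖star (v + w * x) Ω‖ ^ 2) :=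
      fun h => hne (hmax _ hL h)
    rw [star_add, norm_add_apply_sq Ω ho1,
      norm_add_apply_sq Ω (by rw [star_star]; exact ho2)] at hnot
    have e3 : ‖(w * x) Ω‖ ^ 2 = ‖x Ω‖ ^ 2 := by
      rw [hL.pi.norm_apply_sq, hwx, ← hx.pi.norm_apply_sq]
    have e4 : star (w * x) Ω = star x (star w Ω) := by rw [star_mul]; rfl
    rw [e3, e4] at hnot
    push Not at hnot
    linarith
  have hpos : 0 < ‖star w Ω‖ ^ 2 := by
    have : star w Ω ≠ 0 := fun h0 => hp0 (hsepη p hp.1 (isProj_mul_self hp) (by rw [hη, h0]))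
    positivity
  have hposΩ : 0 < ‖p Ω‖ ^ 2 := by
    have : p Ω ≠ 0 := fun h0 => hp0 (hsep p hp.1 h0)
    positivity
  set c := ‖star w Ω‖ ^ 2 / (2 * ‖p Ω‖ ^ 2) with hc_def
  have hc : 0 < c := by positivity
  obtain ⟨r, hr, hr0, hpr, hrlow⟩ := exists_hahn hsep hp (a := star w Ω) (b := Ω) (c := c) (by
    rw [hη, hc_def, div_mul_eq_mul_div, div_lt_iff₀ (by positivity)]
    nlinarith)
  have hrp : r * p = r := by
    have := congrArg star hpr
    rwa [star_mul, isProj_star hp, isProj_star hr] at this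
  have hx' : ∀ x : H →L[ℂ] H, x * r = x → x (r (star w Ω)) = x (star w Ω) := fun x hx =>
    DFunLike.congr_fun hx (star w Ω)
  refine ⟨r, r (star w Ω), hr, hr0, apply_apply_self hr.2 _, ?_, 2 / c, ?_⟩
  · intro x hx hxr h0
    rw [hx' x hxr] at h0
    exact hsepη x hx (by rw [← hxr, mul_assoc, hrp]) h0
  · intro x hx
    rw [hx' x hx.right, hx' (star x) (hx.adj hr hr).right]
    have hxp : Link M p p x :=
      ⟨hx.pi, by rw [← hx.right, mul_assoc, hrp], by rw [← hx.left, ← mul_assoc, hpr]⟩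
    have h1 := hup x hxp
    have h2 := hrlow _ hx.pi.init hx.le_init
    rw [← hx.pi.norm_apply_sq, ← hx.pi.norm_apply_sq] at h2
    rw [div_mul_eq_mul_div, le_div_iff₀ hc]
    nlinarith

/-- Improving the constant. -/
lemma exists_trace_link {Ω : H} (hsep : ∀ x ∈ M, x Ω = 0 → x = 0) {r : H →L[ℂ] H} {η : H}
    (hr : IsProj M r) (hr0 : r ≠ 0) (hsepη : Sep M r η) {K d : ℝ}
    (hK : ∀ x, Link M r r x → ‖star x η‖ ^ 2 ≤ K * ‖x η‖ ^ 2) (hd : 1 < d) :
    ∃ r' η', IsProj M r' ∧ r' ≠ 0 ∧ r' η' = η' ∧ Sep M r' η' ∧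
      ∀ x, Link M r' r' x → ‖star x η'‖ ^ 2 ≤ d * ‖x η'‖ ^ 2 := by
  let S : Set ℝ := {t | ∃ x, Link M r r x ∧ x ≠ 0 ∧ t = ‖star x η‖ ^ 2 / ‖x η‖ ^ 2}
  have hposx : ∀ x, Link M r r x → x ≠ 0 → 0 < ‖x η‖ ^ 2 := fun x hx hx0 => by
    have : x η ≠ 0 := fun h0 => hx0 (hsepη x hx.pi.mem hx.right h0)
    positivity
  have hrr : Link M r r r := ⟨PI.of_proj hr, isProj_mul_self hr, isProj_mul_self hr⟩
  have h1S : (1 : ℝ) ∈ S :=
    ⟨r, hrr, hr0, by rw [isProj_star hr, div_self (hposx r hrr hr0).ne']⟩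
  have hbd : BddAbove S := ⟨K, by
    rintro _ ⟨x, hx, hx0, rfl⟩
    rw [div_le_iff₀ (hposx x hx hx0)]
    exact hK x hx⟩
  set s := sSup S
  have hs1 : 1 ≤ s := le_csSup hbd h1S
  have hS : ∀ x, Link M r r x → ‖star x η‖ ^ 2 ≤ s * ‖x η‖ ^ 2 := by
    intro x hx
    rcases eq_or_ne x 0 with rfl | hx0
    · simp
    exact (div_le_iff₀ (hposx x hx hx0)).1 (le_csSup hbd ⟨x, hx, hx0, rfl⟩)
  obtain ⟨_, ⟨v, hv, hv0, rfl⟩, hlt⟩ := exists_lt_of_lt_csSup ⟨1, h1S⟩
    (show s / d < s from div_lt_self (by linarith) hd)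
  rw [lt_div_iff₀ (hposx v hv hv0), hv.pi.norm_apply_sq] at hlt
  obtain ⟨p, hp_def⟩ : ∃ p, p = star v * v := ⟨_, rfl⟩
  rw [← hp_def] at hlt
  have hp : IsProj M p := hp_def ▸ hv.pi.init
  have hpr : p * r = p := hp_def ▸ hv.le_init
  have hrp : r * p = p := Le.symm hp hr hpr
  have hpv : p (star v η) = star v η := by
    change (p * star v) η = star v η
    rw [hp_def, mul_assoc, hv.pi.star_eq]
  obtain ⟨r', hr', hr'0, hpr', hlow⟩ := exists_hahn hsep hp (a := star v η) (b := η)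
    (c := s / d) (by rw [hpv]; exact hlt)
  have hr'p : r' * p = r' := by
    have := congrArg star hpr'
    rwa [star_mul, isProj_star hp, isProj_star hr'] at this
  have hr'v : ∀ x : H →L[ℂ] H, x * r' = x → x (r' (star v η)) = x (star v η) := fun x hx =>
    DFunLike.congr_fun hx (star v η)
  refine ⟨r', r' (star v η), hr', hr'0, apply_apply_self hr'.2 _, ?_, ?_⟩
  · intro x hx hxr h0
    rw [hr'v x hxr] at h0
    have hxp : x * p = x := by rw [← hxr, mul_assoc, hr'p]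
    have hsv : star v * r = star v := (hv.adj hr hr).right
    have h1 : x * star v = 0 := hsepη _ (mul_mem hx (star_mem hv.pi.mem))
      (by rw [mul_assoc, hsv]) h0
    rw [← hxp, hp_def, ← mul_assoc, h1, zero_mul]
  · intro x hx
    rw [hr'v x hx.right, hr'v (star x) (hx.adj hr' hr').right]
    have hxp : p * x = x := by rw [← hx.left, ← mul_assoc, hpr']
    have hxp' : x * p = x := by rw [← hx.right, mul_assoc, hr'p]
    have hvx : star (v * x) * (v * x) = star x * x := by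
      rw [star_mul, mul_assoc, ← mul_assoc (star v), ← hp_def, hxp]
    have hL : Link M r r (v * x) :=
      ⟨⟨mul_mem hv.pi.mem hx.pi.mem, hvx ▸ hx.pi.proj, by rw [hvx, mul_assoc, hx.pi.eq]⟩,
        by rw [← hxp', mul_assoc v, mul_assoc x, hpr], by rw [← mul_assoc, hv.left]⟩
    have h1 := hS _ hL
    rw [hL.pi.norm_apply_sq, hvx, ← hx.pi.norm_apply_sq, star_mul] at h1
    change ‖star x (star v η)‖ ^ 2 ≤ _ at h1
    have h2 := hlow _ hx.pi.init hx.le_init
    rw [← hx.pi.norm_apply_sq, ← hx.pi.norm_apply_sq, div_mul_eq_mul_div,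
      div_le_iff₀ (by linarith)] at h2
    linarith

lemma norm_sum_sq {ι : Type*} (s : Finset ι) (z : ι → H)
    (h : ∀ i ∈ s, ∀ j ∈ s, i ≠ j → ⟪z i, z j⟫_ℂ = 0) : ‖∑ i ∈ s, z i‖ ^ 2 = ∑ i ∈ s, ‖z i‖ ^ 2 := by
  rw [@norm_sq_eq_re_inner ℂ, sum_inner, map_sum]
  refine sum_congr rfl fun i hi => ?_
  rw [inner_sum, sum_eq_single i (fun j hj hji => h i hi j hj hji.symm) (fun h' => absurd hi h'),
    ← @norm_sq_eq_re_inner ℂ]

/-- From links to the whole corner. -/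
lemma trace_of_link {r : H →L[ℂ] H} {η : H} (hr : IsProj M r) {d : ℝ} (hd : 0 ≤ d)
    (h : ∀ x, Link M r r x → ‖star x η‖ ^ 2 ≤ d * ‖x η‖ ^ 2) {x : H →L[ℂ] H} (hx : x ∈ M)
    (hxr : x * r = x) (hrx : r * x = x) : ‖star x η‖ ^ 2 ≤ d * ‖x η‖ ^ 2 := by
  obtain ⟨u, hu, hu1, hu2, hur, hul⟩ := exists_polar hx
  have huL : Link M r r u := ⟨hu, hur r hr.2 hxr, hul r hrx⟩
  obtain ⟨e, he_def⟩ : ∃ e, e = star u * u := ⟨_, rfl⟩
  rw [← he_def] at hu1
  have he : IsProj M e := he_def ▸ hu.init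
  have hS : IsSelfAdjoint (star x * x) := IsSelfAdjoint.star_mul_self x
  have hSe : star x * x * e = star x * x := by
    have := congrArg star hu1
    rwa [star_mul, hS.star_eq, isProj_star he] at this
  have hxe : x * e = x := by
    rw [← sub_eq_zero, ← CStarRing.star_mul_self_eq_zero_iff]
    have hy : star x * (x * e - x) = 0 := by rw [mul_sub, ← mul_assoc, hSe, sub_self]
    rw [star_sub, star_mul, sub_mul, mul_assoc, hy, mul_zero, sub_self]
  have he_u : e * star u = star u := by rw [he_def, mul_assoc, hu.star_eq]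
  have hstarx : ‖star x η‖ ^ 2 = ‖x (star u η)‖ ^ 2 := by
    rw [@norm_sq_eq_re_inner ℂ, @norm_sq_eq_re_inner ℂ, inner_left, star_star, inner_left x,
      inner_left (star u), star_star]
    change RCLike.re ⟪η, (x * star x) η⟫_ℂ = RCLike.re ⟪η, (u * ((star x * x) * star u)) η⟫_ℂ
    rw [hu2]
    simp only [mul_assoc]
  refine le_of_forall_pos_le_add fun γ hγ => ?_
  obtain ⟨θ, hθ, hθγ⟩ : ∃ θ : ℝ, 0 < θ ∧ θ * (‖x‖ * ‖x‖ + 1) * (3 * d + 1) * (‖η‖ ^ 2 + 1) ≤ γ :=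
    ⟨γ / ((‖x‖ * ‖x‖ + 1) * (3 * d + 1) * (‖η‖ ^ 2 + 1)), by positivity, le_of_eq (by field_simp)⟩
  obtain ⟨m, c, E, hE, -, hEc, happ⟩ :=
    exists_corner_spectral_partition he (mul_mem (star_mem hx) hx) hS hu1 hθ
  have hEh : ∀ i, Commute (E i) (star x * x) :=
    hEc _ (Commute.refl _) (by rw [hS.star_eq]) (hu1.trans hSe.symm)
  have heE : ∀ i, e * E i = E i := fun i => by
    conv_lhs => rw [← hE.total]
    rw [sum_mul, sum_eq_single i (fun j _ hji => hE.orth j i hji) (by simp),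
      isProj_mul_self (hE.proj i)]
  have hEe : ∀ i, E i * e = E i := fun i => by
    have := congrArg star (heE i)
    rwa [star_mul, isProj_star (hE.proj i), isProj_star he] at this
  have hsplit : ∀ z, ‖x z‖ ^ 2 = ∑ i, ‖x (E i z)‖ ^ 2 := by
    intro z
    have hz : x z = ∑ i, x (E i z) := by
      rw [← map_sum, ← _root_.sum_apply, hE.total]
      exact (DFunLike.congr_fun hxe z).symm
    rw [hz, norm_sum_sq _ _ fun i _ j _ hij => ?_]
    rw [inner_left x, inner_left (E i), isProj_star (hE.proj i)]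
    change ⟪z, (E i * ((star x * x) * E j)) z⟫_ℂ = 0
    rw [← mul_assoc, (hEh i).eq, mul_assoc, hE.orth i j hij, mul_zero, zero_apply,
      inner_zero_right]
  have hcell : ∀ i z, |‖x (E i z)‖ ^ 2 - c i * ‖E i z‖ ^ 2| ≤ θ * ‖E i z‖ ^ 2 := by
    intro i z
    set y := E i z
    have hy : ‖(star x * x) y - (c i : ℂ) • y‖ ≤ θ * ‖y‖ :=
      happ i y (apply_apply_self (hE.proj i).2 z)
    have e1 : RCLike.re ⟪y, (star x * x) y - (c i : ℂ) • y⟫_ℂ = ‖x y‖ ^ 2 - c i * ‖y‖ ^ 2 := by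
      rw [inner_sub_right, map_sub, inner_smul_right, @norm_sq_eq_re_inner ℂ _ _ _ _ (x y),
        inner_left x, inner_self_eq_norm_sq_to_K]
      congr 1
      simp [sq]
    rw [← e1]
    refine (RCLike.abs_re_le_norm _).trans ((norm_inner_le_norm _ _).trans ?_)
    nlinarith [norm_nonneg y]
  have hAB : ∀ i, ‖E i (star u η)‖ ^ 2 ≤ d * ‖E i η‖ ^ 2 := by
    intro i
    have hi : star (u * E i) * (u * E i) = E i := by
      rw [star_mul, mul_assoc, ← mul_assoc (star u), ← he_def, heE, isProj_star (hE.proj i),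
        isProj_mul_self (hE.proj i)]
    have hL : Link M r r (u * E i) := by
      refine ⟨⟨mul_mem hu.mem (hE.proj i).1, ?_, ?_⟩, ?_, by rw [← mul_assoc, huL.left]⟩
      · rw [hi]; exact (hE.proj i).2
      · rw [hi, mul_assoc, isProj_mul_self (hE.proj i)]
      · rw [mul_assoc, ← hEe i, mul_assoc (E i), he_def, huL.le_init]
    have h1 := h _ hL
    rw [hL.pi.norm_apply_sq, hi, star_mul, isProj_star (hE.proj i)] at h1
    exact h1
  have hsumle : ∀ z, ∑ i, ‖E i z‖ ^ 2 ≤ ‖z‖ ^ 2 := by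
    intro z
    rw [← norm_sum_sq _ _ fun i _ j _ hij => ?_]
    · rw [← _root_.sum_apply, hE.total]
      exact pow_le_pow_left₀ (norm_nonneg _) (proj_apply_norm_le he.2 z) 2
    · rw [inner_left (E i), isProj_star (hE.proj i)]
      change ⟪z, (E i * E j) z⟫_ℂ = 0
      rw [hE.orth i j hij, zero_apply, inner_zero_right]
  have hterm : ∀ i, ‖x (E i (star u η))‖ ^ 2 ≤
      d * ‖x (E i η)‖ ^ 2 + 2 * d * θ * ‖E i η‖ ^ 2 := by
    intro i
    have h1 := (abs_le.1 (hcell i (star u η))).2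
    have h2 := (abs_le.1 (hcell i η)).1
    rcases le_total 0 (c i) with hci | hci
    · have h3 : (c i + θ) * ‖E i (star u η)‖ ^ 2 ≤ (c i + θ) * (d * ‖E i η‖ ^ 2) :=
        mul_le_mul_of_nonneg_left (hAB i) (by linarith)
      nlinarith
    · have h3 : c i * ‖E i (star u η)‖ ^ 2 ≤ 0 :=
        mul_nonpos_of_nonpos_of_nonneg hci (sq_nonneg _)
      have h4 : θ * ‖E i (star u η)‖ ^ 2 ≤ θ * (d * ‖E i η‖ ^ 2) :=
        mul_le_mul_of_nonneg_left (hAB i) hθ.le
      have h5 : 0 ≤ d * ‖x (E i η)‖ ^ 2 := by positivity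
      have h6 : 0 ≤ d * θ * ‖E i η‖ ^ 2 := by positivity
      linarith
  rw [hstarx, hsplit, hsplit η, mul_sum]
  calc ∑ i, ‖x (E i (star u η))‖ ^ 2
      ≤ ∑ i, (d * ‖x (E i η)‖ ^ 2 + 2 * d * θ * ‖E i η‖ ^ 2) := sum_le_sum fun i _ => hterm i
    _ ≤ (∑ i, d * ‖x (E i η)‖ ^ 2) + γ := by
      rw [sum_add_distrib, ← mul_sum (a := 2 * d * θ)]
      gcongr
      refine (mul_le_mul_of_nonneg_left (hsumle η) (by positivity)).trans ?_
      have hxx : (1 : ℝ) ≤ ‖x‖ * ‖x‖ + 1 := by nlinarith [norm_nonneg x]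
      have : 2 * d * θ * ‖η‖ ^ 2 ≤ θ * 1 * (3 * d + 1) * (‖η‖ ^ 2 + 1) := by
        nlinarith [sq_nonneg ‖η‖, mul_nonneg hd hθ.le, mul_nonneg (mul_nonneg hd hθ.le) (sq_nonneg ‖η‖)]
      refine this.trans (le_trans ?_ hθγ)
      gcongr

/-- An almost tracial vector on a corner under a finite projection. -/
theorem exists_almost_trace (hfac : IsFactor M) {Ω : H} (hsep : ∀ x ∈ M, x Ω = 0 → x = 0)
    {e : H →L[ℂ] H} (he : IsProj M e) (he0 : e ≠ 0) (hfin : Finite' M e) {d : ℝ} (hd : 1 < d) :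
    ∃ r η, IsProj M r ∧ r ≠ 0 ∧ r η = η ∧ Sep M r η ∧
      ∀ x ∈ M, x * r = x → r * x = x → ‖star x η‖ ^ 2 ≤ d * ‖x η‖ ^ 2 := by
  obtain ⟨r, η, hr, hr0, hη, hsepη, K, hK⟩ := exists_bounded_trace hfac hsep he he0 hfin
  obtain ⟨r', η', hr', hr'0, hη', hsepη', h⟩ := exists_trace_link hsep hr hr0 hsepη hK hd
  exact ⟨r', η', hr', hr'0, hη', hsepη',
    fun x hx hxr hrx => trace_of_link hr' (by linarith) h hx hxr hrx⟩

end P132.Homog.TypeIII
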