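import Vale.Agent.P132.Homog.TypeIII.Polar

/-!
# Maximal links between projections, finiteness and cancellation
-/

namespace P132.Homog.TypeIII

open Filter Topology
open Vale.Agent.P085 (IsProj)
open scoped InnerProductSpace

universe u

variable {H : Type u} [NormedAddCommGroup H] [InnerProductSpace ℂ H] [CompleteSpace H]
variable {M : VonNeumannAlgebra H}

set_option linter.unusedSectionVars false

/-- `p ≤ q` for projections. -/
def Le (p q : H →L[ℂ] H) : Prop := p * q = p

lemma Le.symm {p q : H →L[ℂ] H} (hp : IsProj M p) (hq : IsProj M q) (h : Le p q) : q * p = p := by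
  have := congrArg star h
  rwa [star_mul, isProj_star hp, isProj_star hq] at this

lemma sub_isProj {p q : H →L[ℂ] H} (hp : IsProj M p) (hq : IsProj M q) (h : Le q p) :
    IsProj M (p - q) := by
  refine ⟨sub_mem hp.1 hq.1, ?_, hp.2.isSelfAdjoint.sub hq.2.isSelfAdjoint⟩
  change (p - q) * (p - q) = p - q
  rw [mul_sub, sub_mul, sub_mul, isProj_mul_self hp, Le.symm hq hp h,
    (show q * p = q from h), isProj_mul_self hq]
  abel

lemma one_isProj : IsProj M (1 : H →L[ℂ] H) := ⟨one_mem M, IsStarProjection.one _⟩

/-- The orthogonal sum of two partial isometries. -/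
lemma PI.add {v w : H →L[ℂ] H} (hv : PI M v) (hw : PI M w) (h1 : w * (star v * v) = 0)
    (h2 : v * star v * w = 0) :
    PI M (v + w) ∧ star (v + w) * (v + w) = star v * v + star w * w ∧
      (v + w) * star (v + w) = v * star v + w * star w ∧ Ext v (v + w) := by
  have hwv : w * star v = 0 := by
    calc w * star v = w * ((star v * v) * star v) := by rw [mul_assoc (star v), hv.star_eq]
      _ = 0 := by rw [← mul_assoc, h1, zero_mul]
  have hvw : v * star w = 0 := by
    have := congrArg star hwv
    rwa [star_mul, star_star, star_zero] at this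
  have hsvw : star v * w = 0 := by
    calc star v * w = star v * (v * star v) * w := by rw [hv.star_eq]
      _ = 0 := by rw [mul_assoc, h2, mul_zero]
  have hswv : star w * v = 0 := by
    have := congrArg star hsvw
    rwa [star_mul, star_star, star_zero] at this
  have hi : star (v + w) * (v + w) = star v * v + star w * w := by
    rw [star_add, add_mul, mul_add, mul_add, hsvw, hswv, add_zero, zero_add]
  have hf : (v + w) * star (v + w) = v * star v + w * star w := by
    rw [star_add, add_mul, mul_add, mul_add, hvw, hwv, add_zero, zero_add]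
  have h1' : star v * v * (star w * w) = 0 := by
    rw [mul_assoc, ← mul_assoc v, hvw, zero_mul, mul_zero]
  have h1'' : star w * w * (star v * v) = 0 := by
    rw [mul_assoc, ← mul_assoc w, hwv, zero_mul, mul_zero]
  have h3 : v * (star w * w) = 0 := by rw [← mul_assoc, hvw, zero_mul]
  refine ⟨⟨add_mem hv.mem hw.mem, ?_, ?_⟩, hi, hf, ?_, ?_⟩
  · rw [hi]
    refine ⟨?_, (IsSelfAdjoint.star_mul_self v).add (IsSelfAdjoint.star_mul_self w)⟩
    change (star v * v + star w * w) * (star v * v + star w * w) = _
    rw [add_mul, mul_add, mul_add, h1', h1'', hv.proj.isIdempotentElem.eq,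
      hw.proj.isIdempotentElem.eq, add_zero, zero_add]
  · rw [hi, add_mul, mul_add, mul_add, hv.eq, hw.eq, h1, h3, add_zero, zero_add]
  · rw [add_mul, hv.eq, h1, add_zero]
  · rw [hi, add_mul, hv.proj.isIdempotentElem.eq, h1'', add_zero]

/-- `v` is a partial isometry from a part of `p` to a part of `q`. -/
structure Link (M : VonNeumannAlgebra H) (p q v : H →L[ℂ] H) : Prop where
  pi : PI M v
  right : v * p = v
  left : q * v = v

namespace Link

variable {p q v w : H →L[ℂ] H}

lemma adj (hp : IsProj M p) (hq : IsProj M q) (h : Link M p q v) : Link M q p (star v) := by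
  refine ⟨h.pi.adj, ?_, ?_⟩
  · have := congrArg star h.left
    rwa [star_mul, isProj_star hq] at this
  · have := congrArg star h.right
    rwa [star_mul, isProj_star hp] at this

lemma le_init (h : Link M p q v) : Le (star v * v) p := by rw [Le, mul_assoc, h.right]

lemma le_fin (hp : IsProj M p) (hq : IsProj M q) (h : Link M p q v) : Le (v * star v) q := by
  rw [Le, mul_assoc]
  rw [(h.adj hp hq).right]

lemma rest_init (hp : IsProj M p) (h : Link M p q v) : IsProj M (p - star v * v) :=
  sub_isProj hp h.pi.init h.le_init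

lemma rest_fin (hp : IsProj M p) (hq : IsProj M q) (h : Link M p q v) :
    IsProj M (q - v * star v) :=
  sub_isProj hq h.pi.fin (h.le_fin hp hq)

/-- A link between the remainders gives an extension. -/
lemma extend (hp : IsProj M p) (hq : IsProj M q) (hv : Link M p q v)
    (hw : Link M (p - star v * v) (q - v * star v) w) :
    Link M p q (v + w) ∧ Ext v (v + w) ∧
      star (v + w) * (v + w) = star v * v + star w * w ∧
      (v + w) * star (v + w) = v * star v + w * star w := by
  have h1 : w * (star v * v) = 0 := by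
    rw [← hw.right, mul_assoc, sub_mul, Le.symm hv.pi.init hp hv.le_init,
      hv.pi.proj.isIdempotentElem.eq, sub_self, mul_zero]
  have h2 : v * star v * w = 0 := by
    rw [← hw.left, ← mul_assoc, mul_sub, (hv.le_fin hp hq : v * star v * q = _),
      hv.pi.fin.2.isIdempotentElem.eq, sub_self, zero_mul]
  obtain ⟨ha, hi, hf, he⟩ := hv.pi.add hw.pi h1 h2
  refine ⟨⟨ha, ?_, ?_⟩, he, hi, hf⟩
  · rw [add_mul, hv.right]
    congr 1
    rw [← hw.right, mul_assoc, sub_mul, isProj_mul_self hp, hv.le_init]
  · rw [mul_add, hv.left]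
    congr 1
    rw [← hw.left, ← mul_assoc, mul_sub, isProj_mul_self hq,
      Le.symm hv.pi.fin hq (hv.le_fin hp hq)]

end Link

variable {Ω : H}

/-- A maximal link satisfying a closed, additive condition. -/
theorem exists_maximal_link (hsep : ∀ x ∈ M, x Ω = 0 → x = 0) {p q : H →L[ℂ] H}
    (hp : IsProj M p) (hq : IsProj M q) (C : (H →L[ℂ] H) → Prop) (hC0 : C 0)
    (hClim : ∀ (s : ℕ → H →L[ℂ] H) (b : H →L[ℂ] H), (∀ n, C (s n)) → SLim s b →
      SLim (fun n => star (s n)) (star b) → C b) :
    ∃ v, Link M p q v ∧ C v ∧ ∀ w, Link M (p - star v * v) (q - v * star v) w → C (v + w) → w = 0 := by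
  obtain ⟨v, ⟨hv, hCv⟩, -, hmax⟩ := exists_maximal_ext hsep (fun v => Link M p q v ∧ C v)
    (fun v h => h.1.pi) (fun s b hs hb hlim hlim' => ⟨⟨hb,
      (hlim.mul_const p).unique (by simpa only [fun n => (hs n).1.right] using hlim),
      (hlim.const_mul q).unique (by simpa only [fun n => (hs n).1.left] using hlim)⟩,
      hClim s b (fun n => (hs n).2) hlim hlim'⟩)
    (v0 := 0) ⟨⟨PI.zero, zero_mul p, mul_zero q⟩, hC0⟩
  refine ⟨v, hv, hCv, fun w hw hCw => ?_⟩
  obtain ⟨h1, h2, -⟩ := hv.extend hp hq hw
  simpa using hmax (v + w) ⟨h1, hCw⟩ h2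

/-- Comparability: a link exhausts one of the two projections. -/
theorem exists_full_link (hfac : IsFactor M) (hsep : ∀ x ∈ M, x Ω = 0 → x = 0) {p q : H →L[ℂ] H}
    (hp : IsProj M p) (hq : IsProj M q) :
    ∃ v, Link M p q v ∧ (star v * v = p ∨ v * star v = q) := by
  obtain ⟨v, hv, -, hmax⟩ := exists_maximal_link hsep hp hq (fun _ => True) trivial
    (fun _ _ _ _ _ => trivial)
  refine ⟨v, hv, ?_⟩
  by_contra hcon
  push Not at hcon
  obtain ⟨w, hw, hw0, hwr, hwl⟩ := exists_link hfac (hv.rest_init hp) (hv.rest_fin hp hq)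
    (sub_ne_zero.2 (Ne.symm hcon.1)) (sub_ne_zero.2 (Ne.symm hcon.2))
  exact hw0 (hmax w ⟨hw, hwr, hwl⟩ trivial)

/-- A finite projection. -/
def Finite' (M : VonNeumannAlgebra H) (e : H →L[ℂ] H) : Prop :=
  ∀ v, Link M e e v → star v * v = e → v * star v = e

/-- Cancellation inside a finite projection. -/
theorem cancel (hfac : IsFactor M) (hsep : ∀ x ∈ M, x Ω = 0 → x = 0) {e v : H →L[ℂ] H}
    (he : IsProj M e) (hfin : Finite' M e) (hv : Link M e e v) :
    ∃ w, Link M (e - star v * v) (e - v * star v) w ∧
      star w * w = e - star v * v ∧ w * star w = e - v * star v := by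
  obtain ⟨w, hw, hcase⟩ := exists_full_link hfac hsep (hv.rest_init he) (hv.rest_fin he he)
  obtain ⟨hl, -, hi, hf⟩ := hv.extend he he hw
  refine ⟨w, hw, ?_⟩
  rcases hcase with h | h
  · refine ⟨h, ?_⟩
    have := hfin _ hl (by rw [hi, h]; abel)
    rw [hf] at this
    exact eq_sub_of_add_eq' this
  · refine ⟨?_, h⟩
    have h' : star (star (v + w)) * star (v + w) = e := by
      rw [star_star, hf, h]; abel
    have := hfin _ (hl.adj he he) h'
    rw [star_star, hi] at this
    exact eq_sub_of_add_eq' this

end P132.Homog.TypeIII
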