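import Vale.Agent.P132.Homog.TypeIII.Basics

/-!
# Polar decomposition inside a von Neumann algebra
-/

namespace P132.Homog.TypeIII

open Filter Topology
open Vale.Agent.P078.General (mem_vna_of_commute commute_of_mem_centralizer starProjection_commute)
open Vale.Agent.P085 (IsProj)
open scoped InnerProductSpace

universe u

variable {H : Type u} [NormedAddCommGroup H] [InnerProductSpace ℂ H] [CompleteSpace H]
variable {M : VonNeumannAlgebra H}

set_option linter.unusedSectionVars false

/-- `x = u (x⋆ x)^½`, with the initial projection of `u` the support of `x⋆ x`. -/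
theorem exists_polar {x : H →L[ℂ] H} (hx : x ∈ M) :
    ∃ u, PI M u ∧ (star u * u) * (star x * x) = star x * x ∧
      x * star x = u * (star x * x) * star u ∧
      (∀ p, IsStarProjection p → x * p = x → u * p = u) ∧ ∀ q, q * x = x → q * u = u := by
  set S : H →L[ℂ] H := star x * x with hSdef
  have hS : IsSelfAdjoint S := IsSelfAdjoint.star_mul_self x
  have hspec : ∀ z ∈ spectrum ℝ S, 0 ≤ z := fun z hz =>
    spectrum_nonneg_of_nonneg (star_mul_self_nonneg x) hz
  set a : H →L[ℂ] H := cfc Real.sqrt S with hadef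
  have has : IsSelfAdjoint a := cfc_predicate _ S
  have haa : a * a = S := by
    rw [hadef, ← cfc_mul Real.sqrt Real.sqrt S]
    conv_rhs => rw [← cfc_id ℝ S hS]
    exact cfc_congr fun z hz => Real.mul_self_sqrt (hspec z hz)
  have hax : ∀ v, ‖a v‖ = ‖x v‖ := by
    intro v
    refine (sq_eq_sq₀ (norm_nonneg _) (norm_nonneg _)).1 ?_
    rw [@norm_sq_eq_re_inner ℂ, @norm_sq_eq_re_inner ℂ, inner_left a, has.star_eq, inner_left x]
    exact congrArg _ (congrArg _ (DFunLike.congr_fun haa v))
  let t : ℕ → ℝ := fun n => ((n : ℝ) + 1)⁻¹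
  have ht : ∀ n, 0 < t n := fun n => by positivity
  let g : ℕ → H →L[ℂ] H := fun n => cfc (fun z : ℝ => (Real.sqrt (max z (t n)))⁻¹) S
  have hgc : ∀ n, Continuous fun z : ℝ => (Real.sqrt (max z (t n)))⁻¹ := fun n =>
    (by fun_prop : Continuous fun z : ℝ => Real.sqrt (max z (t n))).inv₀ fun z =>
      (Real.sqrt_pos.2 (lt_max_of_lt_right (ht n))).ne'
  have hga : ∀ n, a * g n = cfc (fun z : ℝ => Real.sqrt z * (Real.sqrt (max z (t n)))⁻¹) S :=
    fun n => (cfc_mul Real.sqrt (fun z : ℝ => (Real.sqrt (max z (t n)))⁻¹) S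
      Real.continuous_sqrt.continuousOn (hgc n).continuousOn).symm
  have hcomm : ∀ n, a * g n = g n * a := fun n => (cfc_commute_cfc _ _ S).eq
  have hnag : ∀ n, ‖a * g n‖ ≤ 1 := fun n => by
    rw [hga]
    refine norm_cfc_le zero_le_one fun z _ => ?_
    rw [Real.norm_eq_abs, abs_of_nonneg (by positivity), ← div_eq_mul_inv,
      div_le_one (Real.sqrt_pos.2 (lt_max_of_lt_right (ht n)))]
    exact Real.sqrt_le_sqrt (le_max_left _ _)
  have hsmall : ∀ n, ‖a * (g n * a) - a‖ ≤ Real.sqrt (t n) := fun n => by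
    rw [← mul_assoc, hga n]
    have e : cfc (fun z : ℝ => Real.sqrt z * (Real.sqrt (max z (t n)))⁻¹) S * a - a
        = cfc (fun z : ℝ => Real.sqrt z * (Real.sqrt (max z (t n)))⁻¹ * Real.sqrt z
            - Real.sqrt z) S := by
      have hc : Continuous fun z : ℝ => Real.sqrt z * (Real.sqrt (max z (t n)))⁻¹ :=
        Real.continuous_sqrt.mul (hgc n)
      rw [cfc_sub (fun z : ℝ => Real.sqrt z * (Real.sqrt (max z (t n)))⁻¹ * Real.sqrt z) Real.sqrt S
          (hc.mul Real.continuous_sqrt).continuousOn Real.continuous_sqrt.continuousOn,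
        cfc_mul (fun z : ℝ => Real.sqrt z * (Real.sqrt (max z (t n)))⁻¹) Real.sqrt S
          hc.continuousOn Real.continuous_sqrt.continuousOn]
    rw [e]
    refine norm_cfc_le (Real.sqrt_nonneg _) fun z hz => ?_
    have h0 := hspec z hz
    rcases le_total (t n) z with h | h
    · rw [max_eq_left h]
      have : Real.sqrt z ≠ 0 := (Real.sqrt_pos.2 (lt_of_lt_of_le (ht n) h)).ne'
      simp [this]
    · rw [max_eq_right h, Real.norm_eq_abs]
      have hp := Real.sqrt_pos.2 (ht n)
      have hle := Real.sqrt_le_sqrt h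
      have h1 : Real.sqrt z * (Real.sqrt (t n))⁻¹ ≤ 1 := by
        rw [← div_eq_mul_inv, div_le_one hp]; exact hle
      have h2 : 0 ≤ Real.sqrt z * (Real.sqrt (t n))⁻¹ := by positivity
      rw [abs_le]
      constructor <;> nlinarith [Real.sqrt_nonneg z]
  have ht0 : Tendsto (fun n => Real.sqrt (t n)) atTop (𝓝 0) := by
    have h1 : Tendsto t atTop (𝓝 0) := by
      simpa [t, one_div] using (tendsto_one_div_add_atTop_nhds_zero_nat (𝕜 := ℝ))
    have h2 := (Real.continuous_sqrt.tendsto 0).comp h1
    rw [Real.sqrt_zero] at h2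
    exact h2
  let K : Submodule ℂ H := a.range.topologicalClosure
  have : CompleteSpace K := Submodule.topologicalClosure.completeSpace _
  set P := K.starProjection with hP
  have hPproj : IsStarProjection P := isStarProjection_starProjection
  have hker : ∀ v, a (v - P v) = 0 := by
    intro v
    have h := K.sub_starProjection_mem_orthogonal v
    rw [Submodule.mem_orthogonal] at h
    have h2 := h (a (a (v - P v))) (a.range.le_topologicalClosure ⟨_, rfl⟩)
    rw [inner_left a, has.star_eq] at h2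
    exact inner_self_eq_zero.1 h2
  let s : ℕ → H →L[ℂ] H := fun n => x * g n
  have hsn : ∀ n v, ‖s n v‖ = ‖a (g n v)‖ := fun n v => (hax _).symm
  have hs1 : ∀ n, ‖s n‖ ≤ 1 := fun n => (s n).opNorm_le_bound zero_le_one fun v => by
    rw [hsn]
    exact (a * g n).le_of_opNorm_le (hnag n) v
  have hlim_range : ∀ w, Tendsto (fun n => s n (a w)) atTop (𝓝 (x w)) := fun w => by
    rw [tendsto_iff_norm_sub_tendsto_zero]
    refine squeeze_zero (fun n => norm_nonneg _) (fun n => ?_)
      (by simpa using ht0.mul_const ‖w‖)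
    have e : s n (a w) - x w = x (g n (a w) - w) := by simp [s]
    rw [e, ← hax, map_sub]
    exact (a * (g n * a) - a).le_of_opNorm_le (hsmall n) w
  have hcauchy : ∀ v ∈ K, CauchySeq fun n => s n v := by
    intro v hv
    rw [Metric.cauchySeq_iff']
    intro ε hε
    obtain ⟨_, ⟨w, rfl⟩, hw⟩ := Metric.mem_closure_iff.1 hv (ε / 3) (by linarith)
    obtain ⟨N, hN⟩ := Metric.cauchySeq_iff'.1 (hlim_range w).cauchySeq (ε / 3) (by linarith)
    refine ⟨N, fun n hn => ?_⟩
    have hb : ∀ k, dist (s k v) (s k (a w)) < ε / 3 := fun k => by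
      rw [dist_eq_norm, ← map_sub]
      calc ‖s k (v - a w)‖ ≤ 1 * ‖v - a w‖ := (s k).le_of_opNorm_le (hs1 k) _
        _ < ε / 3 := by rw [one_mul, ← dist_eq_norm]; exact hw
    have := dist_triangle4 (s n v) (s n (a w)) (s N (a w)) (s N v)
    have h2 := hb N
    rw [dist_comm] at h2
    linarith [hb n, hN n hn]
  have hsker : ∀ n v, s n (v - P v) = 0 := fun n v => by
    have h1 : a (g n (v - P v)) = 0 := by
      rw [show a (g n (v - P v)) = g n (a (v - P v)) from DFunLike.congr_fun (hcomm n) _, hker,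
        map_zero]
    exact norm_eq_zero.1 (by rw [hsn, h1, norm_zero])
  have hsP : ∀ n v, s n v = s n (P v) := fun n v => by
    rw [← sub_eq_zero, ← map_sub]; exact hsker n v
  obtain ⟨u, hu⟩ := exists_slim hs1 fun v => ⟨_, (cauchySeq_tendsto_of_complete
    (hcauchy (P v) (K.starProjection_apply_mem v))).choose_spec.congr fun n => (hsP n v).symm⟩
  have hgM : ∀ n, g n ∈ M := fun n => mem_vna_of_commute fun y hy =>
    ((show Commute S y from (commute_of_mem_centralizer (mul_mem (star_mem hx) hx) hy).symm).cfc_real _).eq.symm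
  have huM : u ∈ M := hu.mem fun n => mul_mem hx (hgM n)
  have huP : ∀ v, u v = u (P v) := fun v =>
    tendsto_nhds_unique (hu v) ((hu (P v)).congr fun n => (hsP n v).symm)
  have hua : ∀ w, u (a w) = x w := fun w => tendsto_nhds_unique (hu (a w)) (hlim_range w)
  have hiso : ∀ v ∈ K, ‖u v‖ = ‖v‖ := by
    intro v hv
    refine (isClosed_eq (by fun_prop : Continuous fun v => ‖u v‖) continuous_norm).closure_subset_iff.2
      ?_ hv
    rintro _ ⟨w, rfl⟩
    change ‖u (a w)‖ = ‖a w‖
    rw [hua, hax]
  have huu : star u * u = P := by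
    rw [← sub_eq_zero]
    refine ContinuousLinearMap.ext fun v => ?_
    have hq : ∀ y, ⟪(star u * u - P) y, y⟫_ℂ = 0 := fun y => by
      rw [sub_apply, inner_sub_left, sub_eq_zero]
      have e1 : ⟪(star u * u) y, y⟫_ℂ = ((‖u y‖ ^ 2 : ℝ) : ℂ) := by
        change ⟪star u (u y), y⟫_ℂ = _
        rw [inner_left, star_star, inner_self_eq_norm_sq_to_K]
        push_cast; rfl
      have e2 : ⟪P y, y⟫_ℂ = ((‖P y‖ ^ 2 : ℝ) : ℂ) := by
        conv_lhs => rw [← apply_apply_self hPproj y, inner_left, hPproj.isSelfAdjoint.star_eq]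
        rw [inner_self_eq_norm_sq_to_K]
        push_cast; rfl
      rw [e1, e2, huP y, hiso _ (K.starProjection_apply_mem y)]
    exact DFunLike.congr_fun ((inner_map_self_eq_zero (star u * u - P : H →L[ℂ] H).toLinearMap).1
      hq) v
  have hPa : P * a = a := ContinuousLinearMap.ext fun w =>
    Submodule.starProjection_eq_self_iff.2 (a.range.le_topologicalClosure ⟨w, rfl⟩)
  have hxu : x = u * a := ContinuousLinearMap.ext fun w => (hua w).symm
  refine ⟨u, ⟨huM, huu ▸ hPproj, ?_⟩, ?_, ?_, fun p hp hxp => ?_, fun q hq => ?_⟩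
  · rw [huu]; exact ContinuousLinearMap.ext fun v => (huP v).symm
  · rw [huu, ← haa, ← mul_assoc, hPa]
  · rw [← haa]
    conv_lhs => rw [hxu, star_mul, has.star_eq]
    simp only [mul_assoc]
  · have hpS : p * S = S := by
      have := congrArg star hxp
      rw [star_mul, hp.isSelfAdjoint.star_eq] at this
      rw [hSdef, ← mul_assoc, this]
    have hSp : S * p = S := by rw [hSdef, mul_assoc, hxp]
    refine (hu.mul_const p).unique ?_
    have e : ∀ n, s n * p = s n := fun n => by
      have h3 : g n * p = p * g n := ((show Commute S p from hSp.trans hpS.symm).cfc_real _).eq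
      simp only [s, mul_assoc, h3]
      rw [← mul_assoc, hxp]
    simpa only [e] using hu
  · refine (hu.const_mul q).unique ?_
    have e : ∀ n, q * s n = s n := fun n => by simp only [s, ← mul_assoc, hq]
    simpa only [e] using hu

/-- In a factor, two nonzero projections have nonzero equivalent subprojections. -/
theorem exists_link (hfac : IsFactor M) {p q : H →L[ℂ] H} (hp : IsProj M p) (hq : IsProj M q)
    (hp0 : p ≠ 0) (hq0 : q ≠ 0) : ∃ v, PI M v ∧ v ≠ 0 ∧ v * p = v ∧ q * v = v := by
  obtain ⟨x, hx, hx0⟩ : ∃ m ∈ M, q * m * p ≠ 0 := by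
    by_contra hc
    push Not at hc
    let S : Set H := {w | ∃ m ∈ M, ∃ v, w = m (p v)}
    let K : Submodule ℂ H := (Submodule.span ℂ S).topologicalClosure
    have : CompleteSpace K := Submodule.topologicalClosure.completeSpace _
    have hinv : ∀ y : H →L[ℂ] H, (∀ w ∈ S, y w ∈ K) → ∀ k ∈ K, y k ∈ K := fun y hy k hk =>
      Submodule.topologicalClosure_minimal (t := Submodule.comap (y : H →ₗ[ℂ] H) K) _
        (Submodule.span_le.2 fun w hw => hy w hw)
        ((Submodule.isClosed_topologicalClosure _).preimage y.continuous) hk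
    have hS : ∀ w, w ∈ S → w ∈ K := fun w hw =>
      Submodule.le_topologicalClosure _ (Submodule.subset_span hw)
    have hM : ∀ y ∈ M, ∀ k ∈ K, y k ∈ K := fun y hy => hinv y fun w ⟨m, hm, v, hv⟩ =>
      hS _ ⟨y * m, mul_mem hy hm, v, by rw [hv]; rfl⟩
    have hM' : ∀ y ∈ Set.centralizer (M : Set (H →L[ℂ] H)), ∀ k ∈ K, y k ∈ K := fun y hy =>
      hinv y fun w ⟨m, hm, v, hv⟩ => hS _ ⟨m, hm, y v, by
        rw [hv]
        have e1 := congrArg (fun f : H →L[ℂ] H => f (p v)) (commute_of_mem_centralizer hm hy)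
        have e2 := congrArg (fun f : H →L[ℂ] H => f v) (commute_of_mem_centralizer hp.1 hy)
        change y (m (p v)) = m (y (p v)) at e1
        change y (p v) = p (y v) at e2
        rw [e1, e2]⟩
    have hzM : K.starProjection ∈ M := mem_vna_of_commute fun y hy =>
      starProjection_commute K y (hM' y hy)
        (hM' _ (Set.star_mem_centralizer' (fun z hz => star_mem hz) hy))
    obtain ⟨c, hc'⟩ := hfac _ hzM (VonNeumannAlgebra.mem_commutant_iff.2 fun a ha =>
      starProjection_commute K a (hM a ha) (hM _ (star_mem ha)))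
    have hKp : ∀ v, K.starProjection (p v) = p v := fun v =>
      Submodule.starProjection_eq_self_iff.2 (hS _ ⟨1, one_mem M, v, rfl⟩)
    obtain ⟨v, hv⟩ : ∃ v, p v ≠ 0 := by
      by_contra hcon
      push Not at hcon
      exact hp0 (ContinuousLinearMap.ext hcon)
    have hc1 : c = 1 := by
      have h1 := hKp v
      rw [hc', smul_apply, one_apply_eq_self] at h1
      exact smul_left_injective ℂ hv (by simpa using h1)
    refine hq0 (ContinuousLinearMap.ext fun w => ?_)
    have hw : w ∈ K := by
      have : K.starProjection w = w := by rw [hc', hc1, one_smul]; rfl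
      rw [← this]; exact K.starProjection_apply_mem w
    change q w = 0
    refine Submodule.topologicalClosure_minimal (t := LinearMap.ker (q : H →ₗ[ℂ] H)) _
      (Submodule.span_le.2 ?_) q.isClosed_ker hw
    rintro _ ⟨m, hm, u, rfl⟩
    exact congrArg (fun f : H →L[ℂ] H => f u) (hc m hm)
  obtain ⟨v, hv, hv1, hv2, hvr, hvl⟩ := exists_polar (mul_mem (mul_mem hq.1 hx) hp.1)
  refine ⟨v, hv, fun h0 => hx0 ?_, hvr p hp.2 (by rw [mul_assoc, isProj_mul_self hp]),
    hvl q (by rw [← mul_assoc, ← mul_assoc, isProj_mul_self hq])⟩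
  rw [h0, mul_zero, zero_mul] at hv1
  exact CStarRing.star_mul_self_eq_zero_iff _ |>.1 hv1.symm

end P132.Homog.TypeIII
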