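import Vale.Agent.P132.Homog.TypeIII.Equiv

/-!
# Orthogonal series of partial isometries, exhaustion by pieces, Cantor-Bernstein
-/

namespace P132.Homog.TypeIII

open Filter Topology Finset
open Vale.Agent.P085 (IsProj)
open scoped InnerProductSpace

universe u

variable {H : Type u} [NormedAddCommGroup H] [InnerProductSpace ℂ H] [CompleteSpace H]
variable {M : VonNeumannAlgebra H}

set_option linter.unusedSectionVars false

/-- A sequence of partial isometries with orthogonal initial and final projections. -/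
structure Orth (M : VonNeumannAlgebra H) (f : ℕ → H →L[ℂ] H) : Prop where
  pi : ∀ i, PI M (f i)
  star_mul : ∀ i j, i ≠ j → star (f i) * f j = 0
  mul_star : ∀ i j, i ≠ j → f i * star (f j) = 0

namespace Orth

variable {f : ℕ → H →L[ℂ] H}

lemma sum_spec (hf : Orth M f) (n : ℕ) :
    PI M (∑ i ∈ range n, f i) ∧
      star (∑ i ∈ range n, f i) * (∑ i ∈ range n, f i) = (∑ i ∈ range n, star (f i) * f i) ∧
      (∑ i ∈ range n, f i) * star (∑ i ∈ range n, f i) = (∑ i ∈ range n, f i * star (f i)) := by
  induction n with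
  | zero => simpa using (PI.zero : PI M (0 : H →L[ℂ] H))
  | succ n ih =>
    obtain ⟨hv, hi, hfin⟩ := ih
    have h1 : f n * (star (∑ i ∈ range n, f i) * ∑ i ∈ range n, f i) = 0 := by
      rw [hi, mul_sum]
      refine sum_eq_zero fun i hin => ?_
      rw [← mul_assoc, hf.mul_star n i (by simp at hin; omega), zero_mul]
    have h2 : (∑ i ∈ range n, f i) * star (∑ i ∈ range n, f i) * f n = 0 := by
      rw [hfin, sum_mul]
      refine sum_eq_zero fun i hin => ?_
      rw [mul_assoc, hf.star_mul i n (by simp at hin; omega), mul_zero]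
    obtain ⟨ha, hb, hc, -⟩ := hv.add (hf.pi n) h1 h2
    refine ⟨by rwa [sum_range_succ], ?_, ?_⟩
    · simp only [sum_range_succ, hb, hi]
    · simp only [sum_range_succ, hc, hfin]

lemma sum_ext (hf : Orth M f) {m n : ℕ} (hmn : m ≤ n) :
    Ext (∑ i ∈ range m, f i) (∑ i ∈ range n, f i) := by
  induction n, hmn using Nat.le_induction with
  | base => exact Ext.refl (hf.sum_spec m).1
  | succ n _ ih =>
    obtain ⟨hv, hi, hfin⟩ := hf.sum_spec n
    refine ih.trans ?_
    rw [sum_range_succ]
    refine (hv.add (hf.pi n) ?_ ?_).2.2.2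
    · rw [hi, mul_sum]
      refine sum_eq_zero fun i hin => ?_
      rw [← mul_assoc, hf.mul_star n i (by simp at hin; omega), zero_mul]
    · rw [hfin, sum_mul]
      refine sum_eq_zero fun i hin => ?_
      rw [mul_assoc, hf.star_mul i n (by simp at hin; omega), mul_zero]

/-- The sum of an orthogonal series. -/
theorem exists_sum (hf : Orth M f) :
    ∃ F, PI M F ∧ SLim (fun n => ∑ i ∈ range n, f i) F ∧
      SLim (fun n => star (∑ i ∈ range n, f i)) (star F) ∧
      SLim (fun n => ∑ i ∈ range n, star (f i) * f i) (star F * F) ∧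
      SLim (fun n => ∑ i ∈ range n, f i * star (f i)) (F * star F) := by
  obtain ⟨F, hF, h1, h2, -⟩ :=
    exists_chain_limit (fun n => (hf.sum_spec n).1) fun _ _ h => hf.sum_ext h
  refine ⟨F, hF, h1, h2, ?_, ?_⟩
  · have := h2.mul (fun n => (hf.sum_spec n).1.adj.norm_le) h1
    simpa only [fun n => (hf.sum_spec n).2.1] using this
  · have := h1.mul (fun n => (hf.sum_spec n).1.norm_le) h2
    simpa only [fun n => (hf.sum_spec n).2.2] using this

end Orth

/-- The images of `a` under the powers of `v`. -/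
noncomputable def iter (v a : H →L[ℂ] H) : ℕ → H →L[ℂ] H
  | 0 => a
  | k + 1 => v * iter v a k

/-- An isometry of a corner produces infinitely many copies of the projections missing its range. -/
lemma iter_spec {e a v : H →L[ℂ] H} (hv : Link M e e v) (hve : star v * v = e) (ha : IsProj M a)
    (hae : e * a = a) (hav : a * v = 0) :
    (∀ k, iter v a k ∈ M ∧ e * iter v a k = iter v a k ∧
      star (iter v a k) * iter v a k = a ∧ iter v a k * a = iter v a k) ∧
      ∀ i j, i ≠ j → star (iter v a i) * iter v a j = 0 := by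
  have hmain : ∀ k, iter v a k ∈ M ∧ e * iter v a k = iter v a k ∧
      star (iter v a k) * iter v a k = a ∧ iter v a k * a = iter v a k := by
    intro k
    induction k with
    | zero => exact ⟨ha.1, hae, by simp [iter, isProj_star ha, isProj_mul_self ha],
        isProj_mul_self ha⟩
    | succ k ih =>
      obtain ⟨h1, h2, h3, h4⟩ := ih
      refine ⟨mul_mem hv.pi.mem h1, ?_, ?_, ?_⟩
      · simp only [iter]; rw [← mul_assoc, hv.left]
      · simp only [iter]
        rw [star_mul, mul_assoc, ← mul_assoc (star v), hve, h2, h3]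
      · simp only [iter]; rw [mul_assoc, h4]
  refine ⟨hmain, ?_⟩
  have hlt : ∀ i d, star (iter v a i) * iter v a (i + (d + 1)) = 0 := by
    intro i d
    induction i with
    | zero => simp only [iter]; rw [isProj_star ha, ← mul_assoc, hav, zero_mul]
    | succ i ih =>
      rw [show i + 1 + (d + 1) = (i + (d + 1)) + 1 by omega]
      change star (v * iter v a i) * (v * iter v a (i + (d + 1))) = 0
      rw [star_mul, mul_assoc, ← mul_assoc (star v), hve, (hmain _).2.1, ih]
  intro i j hij
  rcases lt_or_gt_of_ne hij with h | h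
  · obtain ⟨d, rfl⟩ := Nat.exists_eq_add_of_le h
    have := hlt i d
    rwa [show i + (d + 1) = i.succ + d by omega] at this
  · obtain ⟨d, rfl⟩ := Nat.exists_eq_add_of_le h
    have := congrArg star (hlt j d)
    rwa [star_mul, star_star, star_zero, show j + (d + 1) = j.succ + d by omega] at this

variable {Ω : H}

/-- Every projection is a countable sum of pieces equivalent to parts of a given nonzero one. -/
theorem exists_pieces (hfac : IsFactor M) (hsep : ∀ x ∈ M, x Ω = 0 → x = 0) {r P : H →L[ℂ] H}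
    (hr : IsProj M r) (hP : IsProj M P) (hr0 : r ≠ 0) :
    ∃ w : ℕ → H →L[ℂ] H, (∀ i, Link M r P (w i)) ∧
      (∀ i j, i ≠ j → star (w i) * w j = 0) ∧
      SLim (fun n => ∑ i ∈ range n, w i * star (w i)) P := by
  have step : ∀ Q, IsProj M Q → ∃ w, Link M r Q w ∧
      ∀ w', Link M r Q w' → ‖star w' Ω‖ ^ 2 ≤ 2 * ‖star w Ω‖ ^ 2 := by
    intro Q hQ
    let S : Set ℝ := {t | ∃ w, Link M r Q w ∧ t = ‖star w Ω‖ ^ 2}
    have h0 : Link M r Q 0 := ⟨PI.zero, zero_mul r, mul_zero Q⟩
    have hne : S.Nonempty := ⟨_, 0, h0, rfl⟩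
    have hbd : BddAbove S := ⟨‖Ω‖ ^ 2, by
      rintro _ ⟨w, hw, rfl⟩
      refine pow_le_pow_left₀ (norm_nonneg _) ?_ 2
      exact ((star w).le_of_opNorm_le hw.pi.adj.norm_le _).trans_eq (one_mul _)⟩
    by_cases hs : sSup S ≤ 0
    · exact ⟨0, h0, fun w' hw' => by
        have := le_csSup hbd ⟨w', hw', rfl⟩
        simpa using this.trans hs⟩
    · push Not at hs
      obtain ⟨_, ⟨w, hw, rfl⟩, hlt⟩ := exists_lt_of_lt_csSup hne (half_lt_self hs)
      exact ⟨w, hw, fun w' hw' => by linarith [le_csSup hbd ⟨w', hw', rfl⟩]⟩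
  choose g hg hgmax using step
  let seq : ℕ → {Q : H →L[ℂ] H // IsProj M Q} := fun n => Nat.rec ⟨P, hP⟩
    (fun _ Q => ⟨Q.1 - g Q.1 Q.2 * star (g Q.1 Q.2), (hg Q.1 Q.2).rest_fin hr Q.2⟩) n
  let Q : ℕ → H →L[ℂ] H := fun n => (seq n).1
  let w : ℕ → H →L[ℂ] H := fun n => g (Q n) (seq n).2
  have hQs : ∀ n, Q (n + 1) = Q n - w n * star (w n) := fun n => rfl
  have hQp : ∀ n, IsProj M (Q n) := fun n => (seq n).2
  have hQle : ∀ m n, m ≤ n → Q n * Q m = Q n := by
    intro m n hmn
    induction n, hmn using Nat.le_induction with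
    | base => exact isProj_mul_self (hQp m)
    | succ n _ ih =>
      have h : w n * star (w n) * Q n = w n * star (w n) := (hg _ _).le_fin hr (hQp n)
      have h' : Q (n + 1) * Q n = Q (n + 1) := by
        rw [hQs, sub_mul, isProj_mul_self (hQp n), h]
      rw [← h', mul_assoc, ih]
  have hQw : ∀ m n, m ≤ n → Q m * w n = w n := by
    intro m n hmn
    have h := Le.symm (hQp n) (hQp m) (hQle m n hmn)
    calc Q m * w n = Q m * (Q n * w n) := by rw [(hg _ _).left]
      _ = w n := by rw [← mul_assoc, h, (hg _ _).left]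
  have hP0 : Q 0 = P := rfl
  have hwP : ∀ i, Link M r P (w i) := fun i =>
    ⟨(hg _ _).pi, (hg _ _).right, by rw [← hP0]; exact hQw 0 i (Nat.zero_le i)⟩
  have horth : ∀ i j, i < j → star (w i) * w j = 0 := by
    intro i j hij
    have h1 : star (w i) * Q (i + 1) = 0 := by
      rw [hQs, mul_sub, (hwP i).pi.star_eq, ((hg _ _).adj hr (hQp i)).right, sub_self]
    rw [← hQw (i + 1) j hij, ← mul_assoc, h1, zero_mul]
  have horth' : ∀ i j, i ≠ j → star (w i) * w j = 0 := by
    intro i j hij
    rcases lt_or_gt_of_ne hij with h | h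
    · exact horth i j h
    · have := congrArg star (horth j i h)
      rwa [star_mul, star_star, star_zero] at this
  have hproj : Orth M fun i => w i * star (w i) := by
    refine ⟨fun i => PI.of_proj (hwP i).pi.fin, fun i j hij => ?_, fun i j hij => ?_⟩ <;>
      rw [star_mul, star_star, mul_assoc, ← mul_assoc (star (w i)), horth' i j hij, zero_mul,
        mul_zero]
  have hsum : ∀ n, (∑ i ∈ range n, w i * star (w i)) = P - Q n := by
    intro n
    induction n with
    | zero => simp [hP0]
    | succ n ih => rw [sum_range_succ, ih, hQs]; abel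
  obtain ⟨F, hF, hlim, hlim', -⟩ := hproj.exists_sum
  have hFsa : star F = F := by
    refine SLim.unique hlim' ?_
    have : ∀ n, star (∑ i ∈ range n, w i * star (w i)) = ∑ i ∈ range n, w i * star (w i) :=
      fun n => by simp [star_sum]
    simpa only [this] using hlim
  have hFF : F * F = F := by
    refine (hlim.mul (fun n => (hproj.sum_spec n).1.norm_le) hlim).unique ?_
    have : ∀ n, (∑ i ∈ range n, w i * star (w i)) * (∑ i ∈ range n, w i * star (w i))
        = ∑ i ∈ range n, w i * star (w i) := fun n => by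
      have hQP : Q n * P = Q n := hQle 0 n n.zero_le
      rw [hsum, sub_mul, mul_sub, mul_sub, isProj_mul_self hP,
        Le.symm (hQp n) hP hQP, hQP, isProj_mul_self (hQp n)]
      abel
    simpa only [this] using hlim
  have hFp : IsProj M F := ⟨hF.mem, hFF, hFsa⟩
  have hFP : F * P = F := by
    refine (hlim.mul_const P).unique ?_
    have : ∀ n, (∑ i ∈ range n, w i * star (w i)) * P = ∑ i ∈ range n, w i * star (w i) :=
      fun n => by
        rw [sum_mul]
        exact sum_congr rfl fun i _ => (hwP i).le_fin hr hP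
    simpa only [this] using hlim
  suffices hFeq : F = P by exact ⟨w, hwP, horth', hFeq ▸ hlim⟩
  by_contra hne
  obtain ⟨x, hx, hx0, hxr, hxl⟩ := exists_link hfac hr (sub_isProj hP hFp hFP) hr0
    (sub_ne_zero.2 (Ne.symm hne))
  have hxQ : ∀ n, Link M r (Q n) x := by
    intro n
    refine ⟨hx, hxr, ?_⟩
    have h1 : Q n * (P - F) = P - F := by
      refine SLim.unique (a := fun k => Q n * (P - ∑ i ∈ range k, w i * star (w i)))
        (fun v => ((Q n).continuous.tendsto _).comp ((hlim v).const_sub (P v))) ?_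
      intro v
      refine ((hlim v).const_sub (P v)).congr' ?_
      filter_upwards [eventually_ge_atTop n] with k hk
      have h := congrArg (fun T : H →L[ℂ] H => T v) (Le.symm (hQp k) (hQp n) (hQle n k hk))
      simp only [hsum, sub_sub_cancel]
      simpa [hsum] using h.symm
    rw [← hxl, ← mul_assoc, h1]
  have hgain : ∀ n, ‖Q (n + 1) Ω‖ ^ 2 + ‖star (w n) Ω‖ ^ 2 = ‖Q n Ω‖ ^ 2 := by
    intro n
    have e1 : ‖star (w n) Ω‖ ^ 2 = ‖(w n * star (w n)) Ω‖ ^ 2 := by
      simpa only [star_star] using (hg _ (hQp n)).pi.adj.norm_apply_sq Ω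
    have e2 : ⟪Q (n + 1) Ω, (w n * star (w n)) Ω⟫_ℂ = 0 := by
      have h : w n * star (w n) * Q n = w n * star (w n) := (hg _ _).le_fin hr (hQp n)
      have h' := Le.symm (hg _ (hQp n)).pi.fin (hQp n) h
      rw [inner_left, isProj_star (hQp (n + 1))]
      change ⟪Ω, (Q (n + 1) * (w n * star (w n))) Ω⟫_ℂ = 0
      rw [hQs, sub_mul, h', isProj_mul_self (hg _ _).pi.fin, sub_self, zero_apply, inner_zero_right]
    have e3 : Q n Ω = Q (n + 1) Ω + (w n * star (w n)) Ω := by
      rw [hQs, sub_apply, sub_add_cancel]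
    rw [e1, e3, @norm_add_sq ℂ, e2]
    simp
  have hmpos : 0 < ‖star x Ω‖ ^ 2 := by
    have : star x Ω ≠ 0 := fun h => hx0 (by
      simpa using congrArg star (hsep _ (star_mem hx.mem) h))
    positivity
  have hbound : ∀ n : ℕ, (n : ℝ) * (‖star x Ω‖ ^ 2 / 2) + ‖Q n Ω‖ ^ 2 ≤ ‖Q 0 Ω‖ ^ 2 := by
    intro n
    induction n with
    | zero => simp
    | succ n ih =>
      have : ‖star x Ω‖ ^ 2 ≤ 2 * ‖star (w n) Ω‖ ^ 2 := hgmax _ _ x (hxQ n)
      push_cast
      nlinarith [hgain n]
  obtain ⟨n, hn⟩ := exists_nat_gt (‖Q 0 Ω‖ ^ 2 / (‖star x Ω‖ ^ 2 / 2))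
  rw [div_lt_iff₀ (by positivity)] at hn
  nlinarith [hbound n, sq_nonneg ‖Q n Ω‖]

/-- A projection embeds in every projection which contains infinitely many copies of one. -/
theorem exists_embed (hfac : IsFactor M) (hsep : ∀ x ∈ M, x Ω = 0 → x = 0) {p q v : H →L[ℂ] H}
    (hp : IsProj M p) (hq : IsProj M q) (hv : Link M q q v) (hvq : star v * v = q)
    (hne : v * star v ≠ q) : ∃ u, Link M p q u ∧ star u * u = p := by
  obtain ⟨a, ha_def⟩ : ∃ a, a = q - v * star v := ⟨_, rfl⟩
  have ha : IsProj M a := ha_def ▸ hv.rest_fin hq hq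
  have ha0 : a ≠ 0 := ha_def ▸ sub_ne_zero.2 (Ne.symm hne)
  have hav : a * v = 0 := by rw [ha_def, sub_mul, hv.left, hv.pi.eq', sub_self]
  have hqa : q * a = a := by
    rw [ha_def, mul_sub, isProj_mul_self hq, ← mul_assoc, hv.left]
  obtain ⟨ht, hto⟩ := iter_spec hv hvq ha hqa hav
  obtain ⟨w, hw, hwo, hwlim⟩ := exists_pieces hfac hsep ha hp ha0
  set t := iter v a with ht_def
  let f : ℕ → H →L[ℂ] H := fun k => t k * star (w k)
  have haw : ∀ k, a * star (w k) = star (w k) := fun k => ((hw k).adj ha hp).left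
  have hff : ∀ k, star (f k) * f k = w k * star (w k) := fun k => by
    simp only [f, star_mul, star_star]
    rw [mul_assoc (w k), ← mul_assoc (star (t k)), (ht k).2.2.1, haw]
  have hf : Orth M f := by
    refine ⟨fun k => ⟨mul_mem (ht k).1 (star_mem (hw k).pi.mem), by
      rw [hff]; exact (hw k).pi.fin.2, by
      rw [hff]; simp only [f]; rw [mul_assoc, (hw k).pi.star_eq]⟩, fun i j hij => ?_,
      fun i j hij => ?_⟩
    · simp only [f, star_mul, star_star]
      rw [mul_assoc, ← mul_assoc (star (t i)), hto i j hij, zero_mul, mul_zero]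
    · simp only [f, star_mul, star_star]
      rw [mul_assoc, ← mul_assoc (star (w i)), hwo i j hij, zero_mul, mul_zero]
  obtain ⟨F, hF, hlim, -, hini, -⟩ := hf.exists_sum
  have hFF : star F * F = p := by
    refine hini.unique ?_
    simpa only [hff] using hwlim
  refine ⟨F, ⟨hF, by rw [← hFF, hF.eq], (hlim.const_mul q).unique ?_⟩, hFF⟩
  have : ∀ n, q * (∑ i ∈ range n, f i) = ∑ i ∈ range n, f i := fun n => by
    rw [mul_sum]
    exact sum_congr rfl fun i _ => by simp only [f]; rw [← mul_assoc, (ht i).2.1]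
  simpa only [this] using hlim

/-- Cantor-Bernstein for projections. -/
theorem cantor_bernstein {p q f g : H →L[ℂ] H} (hp : IsProj M p) (hq : IsProj M q)
    (hf : Link M p q f) (hff : star f * f = p) (hg : Link M q p g) (hgg : star g * g = q) :
    ∃ v ∈ M, star v * v = p ∧ v * star v = q := by
  obtain ⟨h, hh⟩ : ∃ h, h = g * f := ⟨_, rfl⟩
  have hhh : star h * h = p := by
    rw [hh, star_mul, mul_assoc, ← mul_assoc (star g), hgg, hf.left, hff]
  have hhl : Link M p p h := by
    refine ⟨⟨hh ▸ mul_mem hg.pi.mem hf.pi.mem, hhh ▸ hp.2, ?_⟩, ?_, ?_⟩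
    · rw [hhh, hh, mul_assoc, hf.right]
    · rw [hh, mul_assoc, hf.right]
    · rw [hh, ← mul_assoc, hg.left]
  obtain ⟨a, ha_def⟩ : ∃ a, a = p - g * star g := ⟨_, rfl⟩
  have ha : IsProj M a := ha_def ▸ hg.rest_fin hq hp
  have hah : a * h = 0 := by
    rw [hh, ← mul_assoc, ha_def, sub_mul, hg.left, hg.pi.eq', sub_self, zero_mul]
  have hpa : p * a = a := by rw [ha_def, mul_sub, isProj_mul_self hp, ← mul_assoc, hg.left]
  obtain ⟨ht, hto⟩ := iter_spec hhl hhh ha hpa hah
  set t := iter h a with ht_def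
  have hPI : ∀ k, PI M (t k) := fun k => ⟨(ht k).1, (ht k).2.2.1 ▸ ha.2, by
    rw [(ht k).2.2.1, (ht k).2.2.2]⟩
  have hO : Orth M fun k => t k * star (t k) := by
    refine ⟨fun k => PI.of_proj (hPI k).fin, fun i j hij => ?_, fun i j hij => ?_⟩ <;>
      rw [star_mul, star_star, mul_assoc, ← mul_assoc (star (t i)), hto i j hij, zero_mul,
        mul_zero]
  obtain ⟨Q, hQ, hlim, hlim', hlim2, -⟩ := hO.exists_sum
  have hQsa : star Q = Q := by
    refine SLim.unique hlim' ?_
    simpa only [star_sum, star_mul, star_star] using hlim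
  have hQQ : Q * Q = Q := by
    rw [hQsa] at hlim2
    refine hlim2.unique ?_
    simpa only [star_mul, star_star, fun k => isProj_mul_self (hPI k).fin] using hlim
  have hQp : Q * p = Q := by
    refine (hlim.mul_const p).unique ?_
    have hk : ∀ k, t k * star (t k) * p = t k * star (t k) := fun k => by
      have := congrArg star (ht k).2.1
      rw [star_mul, isProj_star hp] at this
      rw [mul_assoc, this]
    simpa only [sum_mul, hk] using hlim
  have hpQ : p * Q = Q := by
    have := congrArg star hQp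
    rwa [star_mul, isProj_star hp, hQsa] at this
  have hQa : Q * a = a := by
    refine (hlim.mul_const a).unique fun x => ?_
    refine (tendsto_const_nhds (x := a x)).congr' ?_
    filter_upwards [eventually_ge_atTop 1] with n hn
    refine congrArg (fun T : H →L[ℂ] H => T x) (Eq.symm ?_)
    rw [sum_mul, sum_eq_single 0]
    · simp [ht_def, iter, isProj_star ha, isProj_mul_self ha]
    · intro k _ hk
      have h0 := hto k 0 hk
      simp only [ht_def, iter] at h0 ⊢
      rw [mul_assoc, h0, mul_zero]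
    · intro h; simp at h; omega
  have hshift : h * Q * star h = Q - a := by
    refine ((hlim.const_mul h).mul_const (star h)).unique ?_
    have h1 : ∀ n, h * (∑ i ∈ range n, t i * star (t i)) * star h
        = (∑ i ∈ range (n + 1), t i * star (t i)) - a := fun n => by
      rw [sum_range_succ', mul_sum, sum_mul]
      simp only [ht_def, iter, star_mul, isProj_star ha, isProj_mul_self ha, add_sub_cancel_right]
      exact sum_congr rfl fun i _ => by simp only [mul_assoc]
    intro x
    have := ((hlim.shift 1) x).sub_const (a x)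
    refine this.congr fun n => ?_
    exact (DFunLike.congr_fun (h1 n) x).symm
  have hhQ : h * Q = (Q - a) * h := by
    rw [← hshift, mul_assoc (h * Q), hhh, mul_assoc, hQp]
  have hzero : (p - Q) * (h * Q) = 0 := by
    rw [hhQ, ← mul_assoc, sub_mul p Q, mul_sub, mul_sub, hpQ, hpa, hQQ, hQa, sub_self, zero_mul]
  obtain ⟨u, hu⟩ : ∃ u, u = h * Q + (p - Q) := ⟨_, rfl⟩
  have hus : star u = Q * star h + (p - Q) := by
    rw [hu, star_add, star_mul, hQsa, star_sub, isProj_star hp, hQsa]
  have hRR : (p - Q) * (p - Q) = p - Q := by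
    rw [mul_sub, sub_mul, sub_mul, isProj_mul_self hp, hQp, hpQ, hQQ]; abel
  have hzero' : Q * star h * (p - Q) = 0 := by
    have := congrArg star hzero
    rwa [star_mul, star_mul, star_sub, isProj_star hp, hQsa, star_zero] at this
  have hQR : Q * (p - Q) = 0 := by rw [mul_sub, hQp, hQQ, sub_self]
  have hRQ : (p - Q) * Q = 0 := by rw [sub_mul, hpQ, hQQ, sub_self]
  have huu : star u * u = p := by
    rw [hus, hu, add_mul, mul_add, mul_add, hzero, hzero', hRR]
    rw [mul_assoc Q, ← mul_assoc (star h), hhh, hpQ, hQQ]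
    abel
  have huu' : u * star u = g * star g := by
    rw [hus, hu, add_mul, mul_add, mul_add, hRR, mul_assoc h Q (p - Q), hQR, mul_zero,
      ← mul_assoc (p - Q), hRQ, zero_mul, ← mul_assoc, mul_assoc h Q Q, hQQ, hshift]
    rw [ha_def]; abel
  have huM : u ∈ M := hu ▸ add_mem (mul_mem hhl.pi.mem hQ.mem) (sub_mem hp.1 hQ.mem)
  have hgu : g * star g * u = u := by
    have : PI M u := ⟨huM, huu ▸ hp.2, by
      rw [huu, hu, add_mul, sub_mul, mul_assoc, hQp, isProj_mul_self hp]⟩
    rw [← huu', this.eq']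
  refine ⟨star g * u,
    mul_mem (star_mem hg.pi.mem) huM,
    ?_, ?_⟩
  · rw [star_mul, star_star, mul_assoc, ← mul_assoc g, hgu, huu]
  · rw [star_mul, star_star, mul_assoc, ← mul_assoc u, huu', mul_assoc g, hgg, hg.right, hgg]

end P132.Homog.TypeIII
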