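import Vale.Agent.P132.Homog.TypeIII.State
import Vale.Agent.P132.Homog.Interfaces

/-!
# Type III structure of a factor of type III₁ (module F)
-/

namespace P132.Homog.TypeIII

open Filter Topology Finset
open Vale.Agent.P085 (IsProj)
open scoped InnerProductSpace

universe u

variable {H : Type u} [NormedAddCommGroup H] [InnerProductSpace ℂ H] [CompleteSpace H]
variable {M : VonNeumannAlgebra H} {Ω : H}

set_option linter.unusedSectionVars false

/-- Every nonzero projection is infinite. -/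
theorem exists_infinite (hM : IsTypeIII1 M) (hΩ : Ω ≠ 0) (hsep : ∀ x ∈ M, x Ω = 0 → x = 0)
    {q : H →L[ℂ] H} (hq : IsProj M q) (hq0 : q ≠ 0) :
    ∃ v, Link M q q v ∧ star v * v = q ∧ v * star v ≠ q := by
  by_contra hc
  push Not at hc
  exact not_finite hM hΩ hsep hq hq0 fun v hv h => hc v hv h

/-- Any two nonzero projections are equivalent. -/
theorem equiv_of_ne_zero (hM : IsTypeIII1 M) (hΩ : Ω ≠ 0) (hsep : ∀ x ∈ M, x Ω = 0 → x = 0)
    {p q : H →L[ℂ] H} (hp : IsProj M p) (hq : IsProj M q) (hp0 : p ≠ 0) (hq0 : q ≠ 0) :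
    ∃ v ∈ M, star v * v = p ∧ v * star v = q := by
  obtain ⟨v, hv, hvq, hvne⟩ := exists_infinite hM hΩ hsep hq hq0
  obtain ⟨v', hv', hvp, hvne'⟩ := exists_infinite hM hΩ hsep hp hp0
  obtain ⟨f, hf, hff⟩ := exists_embed hM.1 hsep hp hq hv hvq hvne
  obtain ⟨g, hg, hgg⟩ := exists_embed hM.1 hsep hq hp hv' hvp hvne'
  exact cantor_bernstein hp hq hf hff hg hgg

/-- Every nonzero projection has a proper nonzero subprojection. -/
theorem exists_sub (hM : IsTypeIII1 M) (hΩ : Ω ≠ 0) (hsep : ∀ x ∈ M, x Ω = 0 → x = 0)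
    {p : H →L[ℂ] H} (hp : IsProj M p) (hp0 : p ≠ 0) :
    ∃ q, IsProj M q ∧ q * p = q ∧ q ≠ 0 ∧ q ≠ p := by
  obtain ⟨v, hv, hvp, hvne⟩ := exists_infinite hM hΩ hsep hp hp0
  refine ⟨v * star v, hv.pi.fin, hv.le_fin hp hp, fun h0 => hp0 ?_, hvne⟩
  have : v = 0 := by rw [← hv.pi.eq', h0, zero_mul]
  rw [← hvp, this, mul_zero]

/-- (F1) -/
theorem typeIIIOut (hM : IsTypeIII1 M) (hΩ : Ω ≠ 0) (hsep : ∀ x ∈ M, x Ω = 0 → x = 0) :
    P132.Homogeneity.TypeIIIOut M := by
  refine ⟨fun p hp q hq hp' hq' hp0 hq0 =>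
    equiv_of_ne_zero hM hΩ hsep ⟨hp, hp'⟩ ⟨hq, hq'⟩ hp0 hq0, fun p hp hp' hp0 => ?_⟩
  obtain ⟨q, hq, h⟩ := exists_sub hM hΩ hsep ⟨hp, hp'⟩ hp0
  exact ⟨q, hq.1, hq.2, h⟩

/-- (F2) every nonzero projection is the range projection of an isometry of `M`. -/
theorem equiv_one (hM : IsTypeIII1 M) (hΩ : Ω ≠ 0) (hsep : ∀ x ∈ M, x Ω = 0 → x = 0) :
    ∀ p ∈ M, IsStarProjection p → p ≠ 0 → ∃ w ∈ M, star w * w = 1 ∧ w * star w = p := by
  intro p hp hp' hp0
  exact equiv_of_ne_zero hM hΩ hsep one_isProj ⟨hp, hp'⟩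
    (fun h => hΩ (by simpa using DFunLike.congr_fun h Ω)) hp0

/-- (F4) -/
theorem nontrivial (hM : IsTypeIII1 M) (hΩ : Ω ≠ 0) (hsep : ∀ x ∈ M, x Ω = 0 → x = 0) :
    ∃ p ∈ M, IsStarProjection p ∧ p ≠ 0 ∧ p ≠ 1 := by
  obtain ⟨q, hq, -, hq0, hq1⟩ := exists_sub hM hΩ hsep one_isProj
    (fun h => hΩ (by simpa using DFunLike.congr_fun h Ω))
  exact ⟨q, hq.1, hq.2, hq0, hq1⟩

/-- (F3) `n` isometries with orthogonal ranges of total `1`. -/
theorem exists_cuntz (hM : IsTypeIII1 M) (hΩ : Ω ≠ 0) (hsep : ∀ x ∈ M, x Ω = 0 → x = 0)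
    {n : ℕ} (hn : 1 ≤ n) :
    ∃ V : Fin n → H →L[ℂ] H, (∀ i, V i ∈ M) ∧ (∀ i, star (V i) * V i = 1) ∧
      (∀ i j, i ≠ j → star (V i) * V j = 0) ∧ ∑ i, V i * star (V i) = 1 := by
  induction n, hn using Nat.le_induction with
  | base =>
    exact ⟨fun _ => 1, fun _ => one_mem M, fun _ => by simp,
      fun i j h => absurd (Subsingleton.elim i j) h, by simp⟩
  | succ n _ ih =>
    obtain ⟨V, hV, hiso, horth, hsum⟩ := ih
    obtain ⟨p, hpM, hp, hp0, hp1⟩ := nontrivial hM hΩ hsep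
    obtain ⟨a, ha, ha1, ha2⟩ := equiv_one hM hΩ hsep p hpM hp hp0
    obtain ⟨b, hb, hb1, hb2⟩ := equiv_one hM hΩ hsep (1 - p) (sub_mem (one_mem M) hpM) hp.one_sub
      (sub_ne_zero.2 (Ne.symm hp1))
    have hab : star a * b = 0 := by
      calc star a * b = (star a * a) * star a * (b * (star b * b)) := by
            rw [ha1, hb1, one_mul, mul_one]
        _ = star a * ((a * star a) * (b * star b)) * b := by simp only [mul_assoc]
        _ = 0 := by rw [ha2, hb2, hp.isIdempotentElem.mul_one_sub_self, mul_zero, zero_mul]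
    have hba : star b * a = 0 := by
      have := congrArg star hab
      rwa [star_mul, star_star, star_zero] at this
    have hiso' : ∀ i, star (b * V i) * (b * V i) = 1 := fun i => by
      rw [star_mul, mul_assoc, ← mul_assoc (star b), hb1, one_mul, hiso]
    refine ⟨Fin.cons a fun i => b * V i, Fin.cases ha fun i => mul_mem hb (hV i),
      Fin.cases ha1 hiso', fun i j hij => ?_, ?_⟩
    · induction i using Fin.cases with
      | zero =>
        induction j using Fin.cases with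
        | zero => exact absurd rfl hij
        | succ j => simp only [Fin.cons_zero, Fin.cons_succ]; rw [← mul_assoc, hab, zero_mul]
      | succ i =>
        induction j using Fin.cases with
        | zero =>
          simp only [Fin.cons_zero, Fin.cons_succ]
          rw [star_mul, mul_assoc, hba, mul_zero]
        | succ j =>
          simp only [Fin.cons_succ]
          rw [star_mul, mul_assoc, ← mul_assoc (star b), hb1, one_mul,
            horth i j fun h => hij (by rw [h])]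
    · rw [Fin.sum_univ_succ]
      simp only [Fin.cons_zero, Fin.cons_succ, star_mul]
      have : ∑ i, b * V i * (star (V i) * star b) = b * (∑ i, V i * star (V i)) * star b := by
        rw [mul_sum, sum_mul]
        exact sum_congr rfl fun i _ => by simp only [mul_assoc]
      rw [this, hsum, mul_one, ha2, hb2, add_sub_cancel]

end P132.Homog.TypeIII
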