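import Vale.Agent.P132.Defs
import Vale.Agent.P085.Toolkit.Spectral
import Vale.Agent.P085.Toolkit.Limits
import Vale.Agent.P085.Toolkit.SpectralApprox

/-!
# Partial isometries of a von Neumann algebra: chains, maximal extensions, links

Everything is done in the strong operator topology, with a separating vector measuring mass.
-/

namespace P132.Homog.TypeIII

open Filter Topology
open Vale.Agent.P078.General (mem_vna_of_commute commute_of_mem_centralizer starProjection_commute)
open Vale.Agent.P085 (IsProj)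
open scoped InnerProductSpace

universe u

variable {H : Type u} [NormedAddCommGroup H] [InnerProductSpace ℂ H] [CompleteSpace H]
variable {M : VonNeumannAlgebra H}

set_option linter.unusedSectionVars false

lemma isProj_star {p : H →L[ℂ] H} (hp : IsProj M p) : star p = p := hp.2.isSelfAdjoint.star_eq

lemma isProj_mul_self {p : H →L[ℂ] H} (hp : IsProj M p) : p * p = p := hp.2.isIdempotentElem.eq

lemma inner_left (a : H →L[ℂ] H) (x y : H) : ⟪a x, y⟫_ℂ = ⟪x, star a y⟫_ℂ := by
  rw [ContinuousLinearMap.star_eq_adjoint, ContinuousLinearMap.adjoint_inner_right]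

/-! ## Strong limits of bounded sequences -/

/-- `a n → b` strongly. -/
def SLim (a : ℕ → H →L[ℂ] H) (b : H →L[ℂ] H) : Prop :=
  ∀ x, Tendsto (fun n => a n x) atTop (𝓝 (b x))

namespace SLim

variable {a a' : ℕ → H →L[ℂ] H} {b b' : H →L[ℂ] H}

lemma const (b : H →L[ℂ] H) : SLim (fun _ => b) b := fun _ => tendsto_const_nhds

lemma unique (h : SLim a b) (h' : SLim a b') : b = b' :=
  ContinuousLinearMap.ext fun x => tendsto_nhds_unique (h x) (h' x)

lemma shift (h : SLim a b) (k : ℕ) : SLim (fun n => a (n + k)) b :=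
  fun x => (h x).comp (tendsto_add_atTop_nat k)

lemma mul_const (h : SLim a b) (c : H →L[ℂ] H) : SLim (fun n => a n * c) (b * c) :=
  fun x => h (c x)

lemma const_mul (h : SLim a b) (c : H →L[ℂ] H) : SLim (fun n => c * a n) (c * b) :=
  fun x => (c.continuous.tendsto _).comp (h x)

lemma mul (h : SLim a b) {R : ℝ} (hR : ∀ n, ‖a n‖ ≤ R) (h' : SLim a' b') :
    SLim (fun n => a n * a' n) (b * b') := by
  intro x
  have h1 : Tendsto (fun n => a n (a' n x - b' x)) atTop (𝓝 0) := by
    refine squeeze_zero_norm (fun n => (a n).le_of_opNorm_le (hR n) _) ?_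
    have := ((h' x).sub_const (b' x)).norm.const_mul R
    simpa using this
  have h2 := h1.add (h (b' x))
  rw [zero_add] at h2
  refine h2.congr fun n => ?_
  simp

lemma mem (h : SLim a b) (ha : ∀ n, a n ∈ M) : b ∈ M := by
  refine mem_vna_of_commute fun y hy => ContinuousLinearMap.ext fun x => ?_
  refine tendsto_nhds_unique ((y.continuous.tendsto _).comp (h x)) ?_
  exact (h (y x)).congr fun n => (DFunLike.congr_fun (commute_of_mem_centralizer (ha n) hy) x).symm

lemma star_eq (h : SLim a b) (h' : SLim (fun n => star (a n)) b') : star b = b' := by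
  refine ContinuousLinearMap.ext fun x => ext_inner_left ℂ fun y => ?_
  rw [← inner_left]
  refine tendsto_nhds_unique ((h y).inner tendsto_const_nhds) ?_
  simp_rw [inner_left]
  exact tendsto_const_nhds.inner (h' x)

end SLim

/-- A bounded pointwise convergent sequence has a strong limit. -/
lemma exists_slim {a : ℕ → H →L[ℂ] H} {R : ℝ} (hR : ∀ n, ‖a n‖ ≤ R)
    (h : ∀ x, ∃ l, Tendsto (fun n => a n x) atTop (𝓝 l)) : ∃ b, SLim a b := by
  choose l hl using h
  let L : H →ₗ[ℂ] H :=
    { toFun := l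
      map_add' := fun x y => tendsto_nhds_unique (hl _) <| by
        simpa only [map_add] using (hl x).add (hl y)
      map_smul' := fun c x => tendsto_nhds_unique (hl _) <| by
        simpa only [map_smul, RingHom.id_apply] using (hl x).const_smul c }
  refine ⟨L.mkContinuous R fun x => ?_, fun x => hl x⟩
  exact le_of_tendsto (hl x).norm (Eventually.of_forall fun n => (a n).le_of_opNorm_le (hR n) x)

/-! ## Partial isometries -/

/-- A partial isometry in `M`. -/
structure PI (M : VonNeumannAlgebra H) (v : H →L[ℂ] H) : Prop where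
  mem : v ∈ M
  proj : IsStarProjection (star v * v)
  eq : v * (star v * v) = v

namespace PI

variable {v w : H →L[ℂ] H}

lemma init (h : PI M v) : IsProj M (star v * v) := ⟨mul_mem (star_mem h.mem) h.mem, h.proj⟩

lemma eq' (h : PI M v) : v * star v * v = v := by rw [mul_assoc, h.eq]

lemma star_eq (h : PI M v) : star v * (v * star v) = star v := by
  have := congrArg star h.eq'
  rwa [star_mul, star_mul, star_star] at this

lemma fin (h : PI M v) : IsProj M (v * star v) := by
  refine ⟨mul_mem h.mem (star_mem h.mem), ?_, IsSelfAdjoint.mul_star_self v⟩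
  change v * star v * (v * star v) = v * star v
  rw [← mul_assoc, h.eq']

lemma adj (h : PI M v) : PI M (star v) := by
  refine ⟨star_mem h.mem, ?_, ?_⟩
  · rw [star_star]; exact h.fin.2
  · rw [star_star]; exact h.star_eq

lemma zero : PI M (0 : H →L[ℂ] H) := ⟨zero_mem M, by simp [IsStarProjection.zero], by simp⟩

lemma of_proj {p : H →L[ℂ] H} (hp : IsProj M p) : PI M p :=
  ⟨hp.1, by rw [isProj_star hp, isProj_mul_self hp]; exact hp.2,
    by rw [isProj_star hp, isProj_mul_self hp, isProj_mul_self hp]⟩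

lemma norm_le (h : PI M v) : ‖v‖ ≤ 1 := by
  have h1 := CStarRing.norm_star_mul_self (x := v)
  have h2 := IsStarProjection.norm_le _ h.proj
  nlinarith [norm_nonneg v]

lemma norm_apply_sq (h : PI M v) (x : H) : ‖v x‖ ^ 2 = ‖(star v * v) x‖ ^ 2 := by
  have h1 : ⟪v x, v x⟫_ℂ = ⟪(star v * v) x, (star v * v) x⟫_ℂ := by
    conv_rhs => rw [inner_left, h.init.2.isSelfAdjoint.star_eq]
    change ⟪v x, v x⟫_ℂ = ⟪x, ((star v * v) * (star v * v)) x⟫_ℂ
    rw [h.init.2.isIdempotentElem.eq, inner_left]
    rfl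
  rw [@norm_sq_eq_re_inner ℂ, @norm_sq_eq_re_inner ℂ, h1]

end PI

/-- `b` extends `a`. -/
def Ext (a b : H →L[ℂ] H) : Prop :=
  b * (star a * a) = a ∧ (star b * b) * (star a * a) = star a * a

namespace Ext

variable {a b c : H →L[ℂ] H}

lemma refl (ha : PI M a) : Ext a a := ⟨ha.eq, ha.proj.isIdempotentElem.eq⟩

lemma trans (h : Ext a b) (h' : Ext b c) : Ext a c := by
  refine ⟨?_, ?_⟩
  · rw [← h.2, ← mul_assoc, h'.1, h.1]
  · rw [← h.2, ← mul_assoc, h'.2]

lemma star_star (ha : PI M a) (hb : PI M b) (h : Ext a b) : Ext (star a) (star b) := by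
  have h1 : star b * b * (star a * a) = star a * a := h.2
  have h2 : (star a * a) * (star b * b) = star a * a := by
    have := congrArg star h1
    simpa only [star_mul, _root_.star_star] using this
  have hA : (star a * a) * (star a * a) = star a * a := ha.proj.isIdempotentElem.eq
  have h4 : star a = (star a * a) * star b := by
    have := congrArg star h.1
    rw [star_mul, (IsSelfAdjoint.star_mul_self a).star_eq] at this
    exact this.symm
  have h3 : a * star a * b = a := by
    calc a * star a * b = a * ((star a * a) * star b) * b := by rw [← h4]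
      _ = b * (star a * a) * ((star a * a) * star b) * b := by rw [h.1]
      _ = b * ((star a * a) * (star a * a) * (star b * b)) := by simp only [mul_assoc]
      _ = a := by rw [hA, h2, h.1]
  refine ⟨?_, ?_⟩
  · rw [_root_.star_star]
    have := congrArg star h3
    rwa [star_mul, star_mul, _root_.star_star] at this
  · rw [_root_.star_star, _root_.star_star]
    calc b * star b * (a * star a) = b * star b * (b * (star a * a) * star a) := by rw [h.1]
      _ = b * star b * b * (star a * a) * star a := by simp only [mul_assoc]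
      _ = a * star a := by rw [hb.eq', h.1]

end Ext

/-! ## Chains -/

lemma apply_apply_self {p : H →L[ℂ] H} (hp : IsStarProjection p) (x : H) : p (p x) = p x :=
  DFunLike.congr_fun hp.isIdempotentElem.eq x

lemma proj_apply_norm_le {p : H →L[ℂ] H} (hp : IsStarProjection p) (x : H) : ‖p x‖ ≤ ‖x‖ :=
  (p.le_of_opNorm_le (IsStarProjection.norm_le p hp) x).trans_eq (one_mul _)

/-- Increasing projections converge pointwise. -/
lemma cauchy_proj {P : ℕ → H →L[ℂ] H} (hP : ∀ n, IsStarProjection (P n))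
    (h : ∀ m n, m ≤ n → P n * P m = P m) (x : H) : CauchySeq fun n => P n x := by
  have hd : ∀ m n, m ≤ n → ‖P n x - P m x‖ ^ 2 = ‖P n x‖ ^ 2 - ‖P m x‖ ^ 2 := by
    intro m n hmn
    have e1 : ⟪P n x, P m x⟫_ℂ = ⟪P m x, P m x⟫_ℂ := by
      rw [inner_left (P n), inner_left (P m), (hP n).isSelfAdjoint.star_eq,
        (hP m).isSelfAdjoint.star_eq, apply_apply_self (hP m)]
      exact congrArg _ (DFunLike.congr_fun (h m n hmn) x)
    rw [@norm_sub_sq ℂ, e1, ← @norm_sq_eq_re_inner ℂ]
    ring
  have hmono : Monotone fun n => ‖P n x‖ ^ 2 := fun m n hmn => by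
    have := hd m n hmn
    nlinarith [sq_nonneg ‖P n x - P m x‖]
  have hbdd : BddAbove (Set.range fun n => ‖P n x‖ ^ 2) := ⟨‖x‖ ^ 2, by
    rintro _ ⟨n, rfl⟩
    exact pow_le_pow_left₀ (norm_nonneg _) (proj_apply_norm_le (hP n) x) 2⟩
  rw [Metric.cauchySeq_iff']
  intro ε hε
  obtain ⟨N, hN⟩ := Metric.tendsto_atTop.1 (tendsto_atTop_ciSup hmono hbdd) (ε ^ 2)
    (by positivity)
  refine ⟨N, fun n hn => ?_⟩
  rw [dist_eq_norm]
  have h1 := hN N le_rfl
  rw [Real.dist_eq] at h1
  have h2 := le_ciSup hbdd n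
  have h3 := (abs_lt.1 h1).1
  exact (sq_lt_sq₀ (norm_nonneg _) hε.le).1 (by rw [hd N n hn]; linarith)

lemma chain_pointwise {s : ℕ → H →L[ℂ] H} (hs : ∀ n, PI M (s n))
    (h : ∀ m n, m ≤ n → Ext (s m) (s n)) (x : H) : CauchySeq fun n => s n x := by
  set P := fun n => star (s n) * s n
  have hP := Metric.cauchySeq_iff'.1
    (cauchy_proj (fun n => (hs n).proj) (fun m n hmn => (h m n hmn).2) x)
  rw [Metric.cauchySeq_iff']
  intro ε hε
  obtain ⟨N, hN⟩ := hP ε hε
  refine ⟨N, fun n hn => lt_of_le_of_lt ?_ (hN n hn)⟩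
  rw [dist_eq_norm, dist_eq_norm]
  have e : s n x - s N x = s n ((P n) x - (P N) x) := by
    rw [map_sub]
    congr 1
    · exact (DFunLike.congr_fun (hs n).eq x).symm
    · exact (DFunLike.congr_fun (h N n hn).1 x).symm
  rw [e]
  exact ((s n).le_of_opNorm_le (hs n).norm_le _).trans_eq (one_mul _)

/-- A chain of partial isometries has a strong limit extending every term. -/
theorem exists_chain_limit {s : ℕ → H →L[ℂ] H} (hs : ∀ n, PI M (s n))
    (h : ∀ m n, m ≤ n → Ext (s m) (s n)) :
    ∃ b, PI M b ∧ SLim s b ∧ SLim (fun n => star (s n)) (star b) ∧ ∀ n, Ext (s n) b := by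
  have h' : ∀ m n, m ≤ n → Ext (star (s m)) (star (s n)) := fun m n hmn =>
    (h m n hmn).star_star (hs m) (hs n)
  obtain ⟨b, hb⟩ := exists_slim (fun n => (hs n).norm_le) fun x =>
    cauchySeq_tendsto_of_complete (chain_pointwise hs h x)
  obtain ⟨b', hb'⟩ := exists_slim (fun n => (hs n).adj.norm_le) fun x =>
    cauchySeq_tendsto_of_complete (chain_pointwise (fun n => (hs n).adj) h' x)
  obtain rfl := hb.star_eq hb'
  have hPlim : SLim (fun n => star (s n) * s n) (star b * b) :=
    hb'.mul (fun n => (hs n).adj.norm_le) hb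
  have hbPI : PI M b := by
    refine ⟨hb.mem fun n => (hs n).mem, ⟨?_, IsSelfAdjoint.star_mul_self b⟩, ?_⟩
    · have h2 := hPlim.mul (R := 1) (fun n => IsStarProjection.norm_le _ (hs n).proj) hPlim
      refine h2.unique ?_
      simp only [fun n => (hs n).proj.isIdempotentElem.eq]
      exact hPlim
    · have h2 := hb.mul (fun n => (hs n).norm_le) hPlim
      refine h2.unique ?_
      simp only [fun n => (hs n).eq]
      exact hb
  refine ⟨b, hbPI, hb, hb', fun n => ⟨?_, ?_⟩⟩
  · refine ((hb.shift n).mul_const _).unique ?_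
    simp only [fun k => (h n (k + n) (by omega)).1]
    exact SLim.const _
  · refine ((hPlim.shift n).mul_const _).unique ?_
    simp only [fun k => (h n (k + n) (by omega)).2]
    exact SLim.const _

/-- Maximal extensions, the mass being measured at a vector `Ω` separating for `M`. -/
theorem exists_maximal_ext {Ω : H} (hsep : ∀ x ∈ M, x Ω = 0 → x = 0)
    (Good : (H →L[ℂ] H) → Prop) (hgood : ∀ v, Good v → PI M v)
    (hlim : ∀ (s : ℕ → H →L[ℂ] H) (b : H →L[ℂ] H), (∀ n, Good (s n)) → PI M b → SLim s b →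
      SLim (fun n => star (s n)) (star b) → Good b)
    {v0 : H →L[ℂ] H} (h0 : Good v0) :
    ∃ v, Good v ∧ Ext v0 v ∧ ∀ w, Good w → Ext v w → w = v := by
  let α := {v // Good v ∧ Ext v0 v}
  let R : α → α → Prop := fun a b => Ext a.1 b.1
  let μ : α → ℝ := fun a => ‖(star a.1 * a.1) Ω‖ ^ 2
  have key : ∀ a b : α, R a b →
      ‖(star b.1 * b.1) Ω - (star a.1 * a.1) Ω‖ ^ 2 = μ b - μ a := by
    intro a b hab
    set A := star a.1 * a.1 with hAdef
    set B := star b.1 * b.1 with hBdef
    have hA := (hgood _ a.2.1).proj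
    have hB := (hgood _ b.2.1).proj
    have e1 : ⟪B Ω, A Ω⟫_ℂ = ⟪A Ω, A Ω⟫_ℂ := by
      rw [inner_left B, inner_left A, hB.isSelfAdjoint.star_eq, hA.isSelfAdjoint.star_eq,
        apply_apply_self hA]
      exact congrArg _ (DFunLike.congr_fun hab.2 Ω)
    rw [@norm_sub_sq ℂ, e1, ← @norm_sq_eq_re_inner ℂ]
    simp only [μ, ← hAdef, ← hBdef]
    ring
  obtain ⟨s, hs, hgain⟩ := Vale.Agent.P085.Toolkit.exists_greedy R μ
    (fun a => Ext.refl (hgood _ a.2.1)) (fun a b c => Ext.trans)
    (fun a b hab => by nlinarith [key a b hab, sq_nonneg ‖(star b.1 * b.1) Ω - (star a.1 * a.1) Ω‖])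
    (‖Ω‖ ^ 2) (fun a => by
      simp only [μ]
      gcongr
      exact proj_apply_norm_le (hgood _ a.2.1).proj _)
    ⟨v0, h0, Ext.refl (hgood _ h0)⟩
  obtain ⟨b, hbPI, hb, hb', hext⟩ := exists_chain_limit (fun n => hgood _ (s n).2.1) hs
  have hbgood : Good b := hlim _ b (fun n => (s n).2.1) hbPI hb hb'
  have h0b : Ext v0 b := (s 0).2.2.trans (hext 0)
  refine ⟨b, hbgood, h0b, fun w hw hbw => ?_⟩
  have hμ : μ ⟨w, hw, h0b.trans hbw⟩ ≤ μ ⟨b, hbgood, h0b⟩ := by
    refine le_of_forall_pos_lt_add fun γ hγ => ?_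
    obtain ⟨N, hN⟩ := hgain γ hγ
    have h1 := hN N le_rfl ⟨w, hw, h0b.trans hbw⟩ ((hext N).trans hbw)
    have h2 := key (s N) ⟨b, hbgood, h0b⟩ (hext N)
    nlinarith [sq_nonneg ‖(star b * b) Ω - (star (s N).1 * (s N).1) Ω‖]
  have h3 := key ⟨b, hbgood, h0b⟩ ⟨w, hw, h0b.trans hbw⟩ hbw
  have h4 : (star w * w - star b * b) Ω = 0 := by
    rw [sub_apply]
    have : ‖(star w * w) Ω - (star b * b) Ω‖ ^ 2 ≤ 0 := by linarith
    exact norm_eq_zero.1 (pow_eq_zero_iff two_ne_zero |>.1 (le_antisymm this (sq_nonneg _)))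
  have h5 : star w * w = star b * b := sub_eq_zero.1 (hsep _
    (sub_mem (mul_mem (star_mem (hgood _ hw).mem) (hgood _ hw).mem)
      (mul_mem (star_mem hbPI.mem) hbPI.mem)) h4)
  calc w = w * (star w * w) := (hgood _ hw).eq.symm
    _ = w * (star b * b) := by rw [h5]
    _ = b := hbw.1

end P132.Homog.TypeIII
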