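import Vale.Agent.P132.Homog.TypeIII.AlmostTrace
import Vale.Agent.P132.TypeIII

/-!
# An almost tracial corner contradicts full spectrum: the state `∑ 2^{-n}` copies misses `3/2`
-/

namespace P132.Homog.TypeIII

open Filter Topology Finset
open Vale.Agent.P085 (IsProj)
open scoped InnerProductSpace

universe u

variable {H : Type u} [NormedAddCommGroup H] [InnerProductSpace ℂ H] [CompleteSpace H]
variable {M : VonNeumannAlgebra H}

set_option linter.unusedSectionVars false

lemma inner_self_ofReal (v : H) : ⟪v, v⟫_ℂ = ((‖v‖ ^ 2 : ℝ) : ℂ) := by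
  rw [inner_self_eq_norm_sq_to_K]; push_cast; rfl

lemma inner_proj_ofReal {p : H →L[ℂ] H} (hp : IsStarProjection p) (v : H) :
    ⟪v, p v⟫_ℂ = ((‖p v‖ ^ 2 : ℝ) : ℂ) := by
  rw [← inner_self_ofReal, inner_left p, hp.isSelfAdjoint.star_eq, apply_apply_self hp]

lemma inner_proj_ofReal' {p : H →L[ℂ] H} (hp : IsStarProjection p) (v : H) :
    ⟪p v, v⟫_ℂ = ((‖p v‖ ^ 2 : ℝ) : ℂ) := by
  rw [inner_left p, hp.isSelfAdjoint.star_eq, inner_proj_ofReal hp]

lemma inner_proj_eq_zero {p q : H →L[ℂ] H} (hp : IsStarProjection p) (h : p * q = 0) (v w : H) :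
    ⟪p v, q w⟫_ℂ = 0 := by
  rw [inner_left p, hp.isSelfAdjoint.star_eq]
  change ⟪v, (p * q) w⟫_ℂ = 0
  rw [h, zero_apply, inner_zero_right]

/-- The separation of `3/2` from the ratios allowed by an almost trace. -/
lemma gap_ineq {a b : ℝ} (ha : 0 ≤ a) (hb : 0 ≤ b)
    (h : 10 * b ≤ 11 * a ∨ 20 * a ≤ 11 * b) : (1 / 10) * (a + b) ≤ |b - 3 / 2 * a| := by
  rcases h with h | h
  · rw [abs_of_nonpos (by linarith)]; linarith
  · rw [abs_of_nonneg (by linarith)]; linarith

/-- No almost tracial corner in a factor of type III₁. -/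
theorem no_almost_trace (hM : IsTypeIII1 M) {Ω : H} (hΩ : Ω ≠ 0)
    (hsep : ∀ x ∈ M, x Ω = 0 → x = 0) {r : H →L[ℂ] H} {η : H} (hr : IsProj M r) (hr0 : r ≠ 0)
    (hsepη : Sep M r η)
    (hd : ∀ x ∈ M, x * r = x → r * x = x → ‖star x η‖ ^ 2 ≤ (11 / 10) * ‖x η‖ ^ 2) : False := by
  have h1 : (1 : H →L[ℂ] H) ≠ 0 := fun h => hΩ (by simpa using DFunLike.congr_fun h Ω)
  obtain ⟨w, hw, hwo, hwlim⟩ := exists_pieces hM.1 hsep hr one_isProj hr0
  obtain ⟨p, hp_def⟩ : ∃ p : ℕ → H →L[ℂ] H, p = fun n => w n * star (w n) := ⟨_, rfl⟩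
  have hp : ∀ n, IsProj M (p n) := fun n => hp_def ▸ (hw n).pi.fin
  have hpw : ∀ n, p n * w n = w n := fun n => by rw [hp_def]; exact (hw n).pi.eq'
  have hpw0 : ∀ i j, i ≠ j → p i * w j = 0 := fun i j hij => by
    rw [hp_def]; simp only; rw [mul_assoc, hwo i j hij, mul_zero]
  have hpo : ∀ i j, i ≠ j → p i * p j = 0 := fun i j hij => by
    conv_lhs => arg 2; rw [hp_def]
    simp only
    rw [← mul_assoc, hpw0 i j hij, zero_mul]
  have hplim : SLim (fun n => ∑ i ∈ range n, p i) 1 := by rw [hp_def]; exact hwlim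
  -- the weights and the state
  let e : ℕ → ℝ := fun n => (1 / 2 : ℝ) ^ n * ‖w n η‖ ^ 2
  have hwη : ∀ n, ‖w n η‖ ≤ ‖η‖ := fun n =>
    ((w n).le_of_opNorm_le (hw n).pi.norm_le η).trans_eq (one_mul _)
  have he : Summable e := by
    refine Summable.of_nonneg_of_le (fun n => by positivity) (fun n => ?_)
      ((summable_geometric_two).mul_right (‖η‖ ^ 2))
    exact mul_le_mul_of_nonneg_left (pow_le_pow_left₀ (norm_nonneg _) (hwη n) 2) (by positivity)
  obtain ⟨n0, hn0⟩ : ∃ n, w n ≠ 0 := by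
    by_contra hc
    push Not at hc
    refine h1 (hplim.unique ?_)
    simp only [hp_def, hc, zero_mul, sum_const_zero]
    exact SLim.const 0
  set N := ∑' n, e n with hN_def
  have hN : 0 < N := by
    refine he.tsum_pos (fun n => by positivity) n0 ?_
    have : w n0 η ≠ 0 := fun h => hn0 (hsepη _ (hw n0).pi.mem (hw n0).right h)
    positivity
  let c : ℕ → ℝ := fun n => (1 / 2 : ℝ) ^ n / N
  have hc : ∀ n, 0 < c n := fun n => by positivity
  let ξ : ℕ → H := fun n => (Real.sqrt (c n) : ℂ) • w n η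
  have hξn : ∀ (T : H →L[ℂ] H) n, ‖T (ξ n)‖ ^ 2 = c n * ‖T (w n η)‖ ^ 2 := fun T n => by
    simp only [ξ, map_smul, norm_smul, mul_pow, Complex.norm_real, Real.norm_eq_abs, sq_abs,
      Real.sq_sqrt (hc n).le]
  have hξe : (fun n => ‖ξ n‖ ^ 2) = fun n => e n / N := funext fun n => by
    have := hξn 1 n
    simp only [one_apply_eq_self] at this
    rw [this]; simp only [c, e]; ring
  have hsumξ : Summable fun n => ‖ξ n‖ ^ 2 := hξe ▸ he.div_const N
  have htot : ∑' n, ‖ξ n‖ ^ 2 = 1 := by rw [hξe, tsum_div_const, ← hN_def, div_self hN.ne']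
  obtain ⟨φ, hφ_def⟩ : ∃ φ : (H →L[ℂ] H) → ℂ, φ = fun T => ∑' n, ⟪ξ n, T (ξ n)⟫_ℂ := ⟨_, rfl⟩
  have hbd : ∀ T : H →L[ℂ] H, Summable fun n => ‖T (ξ n)‖ ^ 2 := fun T =>
    (hsumξ.mul_left (‖T‖ ^ 2)).of_nonneg_of_le (fun n => sq_nonneg _) fun n => by
      rw [← mul_pow]; exact pow_le_pow_left₀ (norm_nonneg _) (T.le_opNorm _) 2
  have hφsq : ∀ T : H →L[ℂ] H, φ (star T * T) = ((∑' n, ‖T (ξ n)‖ ^ 2 : ℝ) : ℂ) := fun T => by
    rw [hφ_def, Complex.ofReal_tsum]
    refine tsum_congr fun n => ?_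
    change ⟪ξ n, star T (T (ξ n))⟫_ℂ = _
    rw [← inner_left T, inner_self_ofReal]
  have hns : IsNormalState M φ := ⟨ξ, hsumξ, htot, fun x _ => by rw [hφ_def]⟩
  have hfaith : IsFaithful M φ := by
    intro x hx h0
    rw [hφsq, Complex.ofReal_eq_zero] at h0
    have hall := (hasSum_zero_iff_of_nonneg (fun n => sq_nonneg _)).1 (h0 ▸ (hbd x).hasSum)
    have hxw : ∀ n, x * w n = 0 := fun n => by
      have h2 : c n * ‖(x * w n) η‖ ^ 2 = 0 := (hξn x n).symm.trans (congrFun hall n)
      refine hsepη _ (mul_mem hx (hw n).pi.mem) (by rw [mul_assoc, (hw n).right]) ?_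
      simpa [(hc n).ne'] using h2
    have h3 := (hplim.const_mul x).unique (b' := 0) (by
      have : ∀ k, x * (∑ i ∈ range k, p i) = 0 := fun k => by
        rw [mul_sum]
        refine sum_eq_zero fun i _ => ?_
        rw [hp_def]; simp only; rw [← mul_assoc, hxw, zero_mul]
      simp only [this]
      exact SLim.const 0)
    simpa using h3
  obtain ⟨x, hx, hx1, hxy⟩ := hM.2 φ hns hfaith (3 / 2) (by norm_num) (1 / 20) (by norm_num)
  have hpξ : ∀ i k, p i (ξ k) = if i = k then ξ k else 0 := fun i k => by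
    split_ifs with h
    · subst h
      simp only [ξ, map_smul]
      congr 1
      exact DFunLike.congr_fun (hpw i) η
    · simp only [ξ, map_smul]
      have : p i (w k η) = 0 := DFunLike.congr_fun (hpw0 i k h) η
      rw [this, smul_zero]
  let A : ℕ → ℕ → ℝ := fun i j => ‖p i (x (ξ j))‖ ^ 2
  let B : ℕ → ℕ → ℝ := fun i j => ‖p j (star x (ξ i))‖ ^ 2
  have hgap : ∀ i j, (1 / 10) * (A i j + B i j) ≤ |B i j - 3 / 2 * A i j| := by
    intro i j
    obtain ⟨T, hT⟩ : ∃ T, T = star (w i) * x * w j := ⟨_, rfl⟩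
    have hsw : r * star (w i) = star (w i) := ((hw i).adj hr one_isProj).left
    have hTM : T ∈ M := hT ▸ mul_mem (mul_mem (star_mem (hw i).pi.mem) hx) (hw j).pi.mem
    have hTr : T * r = T := by rw [hT, mul_assoc, (hw j).right]
    have hrT : r * T = T := by rw [hT, ← mul_assoc, ← mul_assoc, hsw]
    have hTsr : star T * r = star T := by
      have := congrArg star hrT
      rwa [star_mul, isProj_star hr] at this
    have hrTs : r * star T = star T := by
      have := congrArg star hTr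
      rwa [star_mul, isProj_star hr] at this
    have h1 := hd T hTM hTr hrT
    have h2 := hd (star T) (star_mem hTM) hTsr hrTs
    rw [star_star] at h2
    have hA : A i j = c j * ‖T η‖ ^ 2 := by
      have h3 := hξn (p i * x) j
      change A i j = c j * ‖p i (x (w j η))‖ ^ 2 at h3
      rw [h3, hT, hp_def]
      congr 1
      have h4 := (hw i).pi.adj.norm_apply_sq (x (w j η))
      rw [star_star] at h4
      exact h4.symm
    have hB : B i j = c i * ‖star T η‖ ^ 2 := by
      have h3 := hξn (p j * star x) i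
      change B i j = c i * ‖p j (star x (w i η))‖ ^ 2 at h3
      rw [h3, hT, hp_def, star_mul, star_mul, star_star, ← mul_assoc]
      congr 1
      have h4 := (hw j).pi.adj.norm_apply_sq (star x (w i η))
      rw [star_star] at h4
      exact h4.symm
    refine gap_ineq (sq_nonneg _) (sq_nonneg _) ?_
    rw [hA, hB]
    rcases le_or_gt j i with hji | hij
    · refine Or.inl ?_
      have hcc : c i ≤ c j :=
        div_le_div_of_nonneg_right (pow_le_pow_of_le_one (by norm_num) (by norm_num) hji) hN.le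
      nlinarith [mul_le_mul_of_nonneg_left h1 (hc i).le,
        mul_le_mul_of_nonneg_right hcc (sq_nonneg ‖T η‖)]
    · refine Or.inr ?_
      have hcc : 2 * c j ≤ c i := by
        have h5 : (1 / 2 : ℝ) ^ j ≤ (1 / 2) ^ (i + 1) :=
          pow_le_pow_of_le_one (by norm_num) (by norm_num) hij
        rw [pow_succ] at h5
        simp only [c, ← mul_div_assoc]
        exact div_le_div_of_nonneg_right (by linarith) hN.le
      nlinarith [mul_le_mul_of_nonneg_left h2 (hc j).le,
        mul_le_mul_of_nonneg_right hcc (sq_nonneg ‖star T η‖)]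
  -- testing against signed finite sums
  have htest : ∀ n, ∑ i ∈ range n, ∑ j ∈ range n, (A i j + B i j) ≤ 1 / 4 := by
    intro n
    let s : ℕ → ℕ → ℝ := fun i j => if 0 ≤ B i j - 3 / 2 * A i j then 1 else -1
    have hs2 : ∀ i j, s i j ^ 2 = 1 := fun i j => by simp only [s]; split_ifs <;> norm_num
    have hsabs : ∀ i j, s i j * (B i j - 3 / 2 * A i j) = |B i j - 3 / 2 * A i j| := fun i j => by
      simp only [s]
      split_ifs with h
      · rw [one_mul, abs_of_nonneg h]
      · rw [abs_of_neg (not_le.1 h), neg_one_mul]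
    obtain ⟨y, hy_def⟩ : ∃ y, y = ∑ i ∈ range n, ∑ j ∈ range n, (s i j : ℂ) • (p i * x * p j) :=
      ⟨_, rfl⟩
    have hyM : y ∈ M := hy_def ▸ sum_mem fun i _ => sum_mem fun j _ =>
      M.toStarSubalgebra.smul_mem (mul_mem (mul_mem (hp i).1 hx) (hp j).1) _
    have hy1 : ∀ k, y (ξ k) = if k < n then ∑ i ∈ range n, (s i k : ℂ) • p i (x (ξ k)) else 0 := by
      intro k
      simp only [hy_def, _root_.sum_apply, smul_apply, mul_apply_eq_comp, hpξ]
      rw [sum_comm]
      split_ifs with hk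
      · rw [sum_eq_single k (fun j _ hjk => by simp [hjk]) (fun h => absurd (mem_range.2 hk) h)]
        simp
      · refine sum_eq_zero fun j hj => sum_eq_zero fun i _ => ?_
        have : j ≠ k := fun h => hk (h ▸ mem_range.1 hj)
        simp [this]
    have hy2 : ∀ k, star y (ξ k) =
        if k < n then ∑ j ∈ range n, (s k j : ℂ) • p j (star x (ξ k)) else 0 := by
      intro k
      simp only [hy_def, star_sum, star_smul, star_mul, Complex.star_def, Complex.conj_ofReal,
        fun i => isProj_star (hp i), _root_.sum_apply, smul_apply, mul_apply_eq_comp, hpξ]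
      split_ifs with hk
      · rw [sum_eq_single k (fun j _ hjk => by simp [hjk]) (fun h => absurd (mem_range.2 hk) h)]
        simp
      · refine sum_eq_zero fun j hj => sum_eq_zero fun i _ => ?_
        have : j ≠ k := fun h => hk (h ▸ mem_range.1 hj)
        simp [this]
    have horth : ∀ (σ : ℕ → ℝ) (v : H), (∀ i, σ i ^ 2 = 1) →
        ‖∑ i ∈ range n, (σ i : ℂ) • p i v‖ ^ 2 = ∑ i ∈ range n, ‖p i v‖ ^ 2 := by
      intro σ v hσ
      rw [norm_sum_sq _ _ fun i _ j _ hij => by
        rw [inner_smul_left, inner_smul_right, inner_proj_eq_zero (hp i).2 (hpo i j hij), mul_zero,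
          mul_zero]]
      refine sum_congr rfl fun i _ => ?_
      rw [norm_smul, mul_pow, Complex.norm_real, Real.norm_eq_abs, sq_abs, hσ, one_mul]
    have hR1 : φ (star y * y) = ((∑ i ∈ range n, ∑ j ∈ range n, A i j : ℝ) : ℂ) := by
      rw [hφsq, tsum_eq_sum (s := range n) (fun k hk => by
        rw [hy1, if_neg (mt mem_range.2 hk)]; simp), sum_comm (s := range n) (f := fun i j => A i j)]
      congr 1
      refine sum_congr rfl fun k hk => ?_
      rw [hy1, if_pos (mem_range.1 hk), horth _ _ fun i => hs2 i k]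
    have hR2 : φ (y * star y) = ((∑ i ∈ range n, ∑ j ∈ range n, B i j : ℝ) : ℂ) := by
      have h := hφsq (star y)
      rw [star_star] at h
      rw [h, tsum_eq_sum (s := range n) (fun k hk => by
        rw [hy2, if_neg (mt mem_range.2 hk)]; simp)]
      congr 1
      refine sum_congr rfl fun k hk => ?_
      rw [hy2, if_pos (mem_range.1 hk), horth _ _ fun i => hs2 k i]
    have hL1 : φ (x * star y) = ((∑ i ∈ range n, ∑ j ∈ range n, s i j * B i j : ℝ) : ℂ) := by
      have hk : ∀ k, ⟪ξ k, (x * star y) (ξ k)⟫_ℂ = ⟪star x (ξ k), star y (ξ k)⟫_ℂ := fun k => by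
        rw [inner_left, star_star]; rfl
      rw [hφ_def]
      simp only [hk]
      rw [tsum_eq_sum (s := range n) (fun k hk => by
        rw [hy2, if_neg (mt mem_range.2 hk), inner_zero_right])]
      push_cast
      refine sum_congr rfl fun k hk => ?_
      rw [hy2, if_pos (mem_range.1 hk), inner_sum]
      refine sum_congr rfl fun j _ => ?_
      rw [inner_smul_right, inner_proj_ofReal (hp j).2]
    have hL2 : φ (star y * x) = ((∑ i ∈ range n, ∑ j ∈ range n, s i j * A i j : ℝ) : ℂ) := by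
      have hk : ∀ k, ⟪ξ k, (star y * x) (ξ k)⟫_ℂ = ⟪y (ξ k), x (ξ k)⟫_ℂ := fun k => by
        rw [inner_left y]; rfl
      rw [hφ_def]
      simp only [hk]
      rw [tsum_eq_sum (s := range n) (fun k hk => by
        rw [hy1, if_neg (mt mem_range.2 hk), inner_zero_left]),
        sum_comm (s := range n) (f := fun i j => s i j * A i j)]
      push_cast
      refine sum_congr rfl fun k hk => ?_
      rw [hy1, if_pos (mem_range.1 hk), sum_inner]
      refine sum_congr rfl fun i _ => ?_
      rw [inner_smul_left, Complex.conj_ofReal, inner_proj_ofReal' (hp i).2]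
    have h := hxy y hyM
    rw [hR1, hR2, hL1, hL2, ← Complex.ofReal_mul, ← Complex.ofReal_sub, Complex.norm_real,
      Real.norm_eq_abs, Complex.ofReal_re, Complex.ofReal_re] at h
    set R := ∑ i ∈ range n, ∑ j ∈ range n, (A i j + B i j) with hR_def
    have hR : (∑ i ∈ range n, ∑ j ∈ range n, A i j) + ∑ i ∈ range n, ∑ j ∈ range n, B i j = R := by
      simp only [hR_def, sum_add_distrib]
    rw [hR] at h
    have hlow : 1 / 10 * R ≤ (∑ i ∈ range n, ∑ j ∈ range n, s i j * B i j)
        - 3 / 2 * ∑ i ∈ range n, ∑ j ∈ range n, s i j * A i j := by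
      simp only [hR_def, mul_sum, ← sum_sub_distrib]
      refine sum_le_sum fun i _ => sum_le_sum fun j _ => ?_
      linarith [hgap i j, hsabs i j, mul_sub (s i j) (B i j) (3 / 2 * A i j)]
    have hR0 : 0 ≤ R := sum_nonneg fun i _ => sum_nonneg fun j _ =>
      add_nonneg (sq_nonneg _) (sq_nonneg _)
    have hsq := Real.sq_sqrt hR0
    have h3 : 1 / 10 * R ≤ 1 / 20 * Real.sqrt R :=
      hlow.trans ((le_abs_self _).trans h)
    nlinarith [sq_nonneg (Real.sqrt R - 1 / 2), Real.sqrt_nonneg R]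
  -- but the mass of `x` is one
  rw [hφsq, Complex.ofReal_eq_one] at hx1
  have hev : ∀ᶠ k in atTop, (1 / 2 : ℝ) < ∑ j ∈ range k, ‖x (ξ j)‖ ^ 2 :=
    (hx1 ▸ (hbd x).hasSum.tendsto_sum_nat).eventually_const_lt (by norm_num)
  obtain ⟨K, hK⟩ := hev.exists
  have hlimK : Tendsto (fun n => ∑ j ∈ range K, ‖(∑ i ∈ range n, p i) (x (ξ j))‖ ^ 2) atTop
      (𝓝 (∑ j ∈ range K, ‖x (ξ j)‖ ^ 2)) :=
    tendsto_finsetSum _ fun j _ => by simpa using ((hplim (x (ξ j))).norm.pow 2)
  obtain ⟨n, hn, hKn⟩ := ((hlimK.eventually_const_lt hK).and (eventually_ge_atTop K)).exists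
  have hle : ∑ j ∈ range K, ‖(∑ i ∈ range n, p i) (x (ξ j))‖ ^ 2 ≤ 1 / 4 := by
    calc ∑ j ∈ range K, ‖(∑ i ∈ range n, p i) (x (ξ j))‖ ^ 2
        = ∑ j ∈ range K, ∑ i ∈ range n, A i j := sum_congr rfl fun j _ => by
          rw [_root_.sum_apply, norm_sum_sq _ _ fun i _ i' _ hii' =>
            inner_proj_eq_zero (hp i).2 (hpo i i' hii') _ _]
      _ ≤ ∑ j ∈ range n, ∑ i ∈ range n, A i j := sum_le_sum_of_subset_of_nonneg
          (range_subset_range.2 hKn) fun j _ _ => sum_nonneg fun i _ => sq_nonneg _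
      _ ≤ ∑ i ∈ range n, ∑ j ∈ range n, (A i j + B i j) := by
          rw [sum_comm]
          exact sum_le_sum fun i _ => sum_le_sum fun j _ => le_add_of_nonneg_right (sq_nonneg _)
      _ ≤ 1 / 4 := htest n
  linarith

/-- A factor of type III₁ has no nonzero finite projection. -/
theorem not_finite (hM : IsTypeIII1 M) {Ω : H} (hΩ : Ω ≠ 0)
    (hsep : ∀ x ∈ M, x Ω = 0 → x = 0) {e : H →L[ℂ] H} (he : IsProj M e) (he0 : e ≠ 0) :
    ¬ Finite' M e := fun hfin => by
  obtain ⟨r, η, hr, hr0, -, hsepη, h⟩ :=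
    exists_almost_trace hM.1 hsep he he0 hfin (d := 11 / 10) (by norm_num)
  exact no_almost_trace hM hΩ hsep hr hr0 hsepη h

end P132.Homog.TypeIII
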